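import Vale.Agent.P166.NW.GG.SelfAvg

/-! The perturbation forces the identities for weights carried by a cascade: module C. -/

noncomputable section

open MeasureTheory ProbabilityTheory Filter
open scoped BigOperators Topology

namespace Vale.Agent.P166.NW.GG

open Vale.Agent.P157 Vale.Agent.P157.Parisi Vale.Agent.P157.Parisi.Up
open Vale.Agent.P157.Parisi.Perturb
open Vale.Agent.P168.Cascade
open Vale.Agent.P168.Limit.SelfAvg (updateOne_preserving)

variable {β : Type} [MeasurableSpace β] (ν : Measure β) [IsProbabilityMeasure ν] {r N L : ℕ}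
  {m : Fin r → ℝ} {C : ℝ}

/-- Nested means of parameter-dependent functions depend measurably on the parameter. -/
lemma measurable_nRep_param (m : Fin r → ℝ) {P : Type} [MeasurableSpace P]
    {W : P → Cube N → (Fin r → β) → ℝ} (hW : MeasW W) (n : ℕ)
    {F : P → (Fin n → Cube N) → ℝ} (hF : ∀ σ, Measurable fun d => F d σ) :
    Measurable fun d => nRep ν m (W d) n (F d) := by
  classical
  refine Finset.measurable_sum _ fun σ _ => (hF σ).mul ?_
  have h := measurable_nRep ν m hW n fun τ => if τ = σ then (1 : ℝ) else 0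
  simpa [nRep] using h

lemma pertH_update (s : ℝ) (x : Fin L → ℝ) (P : Fin L) (t : ℝ) (J : PertIdx N L → ℝ) (σ : Cube N) :
    pertH s (Function.update x P t) J σ =
      pertH s (Function.update x P 0) J σ + t * (s * gObs P J σ) := by
  simp only [pertH_eq_sum, ← Finset.add_sum_erase _ _ (Finset.mem_univ P),
    Function.update_self]
  rw [Finset.sum_congr rfl fun Q hQ =>
      show Function.update x P t Q * (s * gObs Q J σ) = x Q * (s * gObs Q J σ) by
        rw [Function.update_of_ne (Finset.ne_of_mem_erase hQ)],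
    Finset.sum_congr rfl fun Q hQ =>
      show Function.update x P 0 Q * (s * gObs Q J σ) = x Q * (s * gObs Q J σ) by
        rw [Function.update_of_ne (Finset.ne_of_mem_erase hQ)]]
  ring

variable {D : Type} [MeasurableSpace D] (law : Measure D) [IsProbabilityMeasure law]
  {W : D → Cube N → (Fin r → β) → ℝ}

/-- The mean of the observable. -/
def obsMean (m : Fin r → ℝ) (W : D → Cube N → (Fin r → β) → ℝ) (s : ℝ) (P : Fin L)
    (x : Fin L → ℝ) : ℝ :=
  ∫ e, nRep ν m (pertW W s x e) 1 (fun σ => gObs P e.2 (σ 0)) ∂famLaw law N L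

/-- The fluctuation of the observable. -/
def fl (m : Fin r → ℝ) (W : D → Cube N → (Fin r → β) → ℝ) (s : ℝ) (P : Fin L) (x : Fin L → ℝ) : ℝ :=
  ∫ e, nRep ν m (pertW W s x e) 1 (fun σ => |gObs P e.2 (σ 0) - obsMean ν law m W s P x|)
    ∂famLaw law N L

variable (hm : Exps m) (hW : MeasW W) (hb : ∀ d, WBdd C (W d))

include hW in
lemma measurable_obsMean (s : ℝ) (P : Fin L) :
    Measurable (obsMean ν law m W s P : (Fin L → ℝ) → ℝ) :=
  ((measurable_nRep_param ν m (measW_pertW hW s) 1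
    (F := fun z : (Fin L → ℝ) × (D × (PertIdx N L → ℝ)) => fun σ => gObs P z.2.2 (σ 0))
    fun σ => (measurable_gObs P _).comp (measurable_snd.comp measurable_snd)
    ).stronglyMeasurable.integral_prod_right' (ν := famLaw law N L)).measurable

include hW in
lemma measurable_fl (s : ℝ) (P : Fin L) :
    Measurable (fl ν law m W s P : (Fin L → ℝ) → ℝ) :=
  ((measurable_nRep_param ν m (measW_pertW hW s) 1
    (F := fun z : (Fin L → ℝ) × (D × (PertIdx N L → ℝ)) => fun σ =>
      |gObs P z.2.2 (σ 0) - obsMean ν law m W s P z.1|)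
    fun σ => (((measurable_gObs P _).comp (measurable_snd.comp measurable_snd)).sub
      ((measurable_obsMean ν law hW s P).comp measurable_fst)).abs
    ).stronglyMeasurable.integral_prod_right' (ν := famLaw law N L)).measurable

include hm hb in
lemma nRep_pert_mono (s : ℝ) (x : Fin L → ℝ) (e : D × (PertIdx N L → ℝ)) {k : ℕ}
    {F G : (Fin (k + 1) → Cube N) → ℝ} (h : ∀ σ, F σ ≤ G σ) :
    nRep ν m (pertW W s x e) (k + 1) F ≤ nRep ν m (pertW W s x e) (k + 1) G := by
  rw [pertW_eq]; exact nRep_mono ν hm (wbdd_tiltW (hb _) _) h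

include hm hb in
lemma nRep_pert_const (s : ℝ) (x : Fin L → ℝ) (e : D × (PertIdx N L → ℝ)) (k : ℕ) (c : ℝ) :
    nRep ν m (pertW W s x e) (k + 1) (fun _ => c) = c := by
  rw [pertW_eq]; exact nRep_const ν hm (wbdd_tiltW (hb _) _) k c

include hm hb in
lemma nRep_pert_nonneg (s : ℝ) (x : Fin L → ℝ) (e : D × (PertIdx N L → ℝ)) {k : ℕ}
    {F : (Fin (k + 1) → Cube N) → ℝ} (h : ∀ σ, 0 ≤ F σ) :
    0 ≤ nRep ν m (pertW W s x e) (k + 1) F := by
  rw [← nRep_pert_const ν hm hb s x e k 0]; exact nRep_pert_mono ν hm hb s x e h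

include hm hb in
lemma abs_nRep_pert_le (s : ℝ) (x : Fin L → ℝ) (e : D × (PertIdx N L → ℝ)) {k : ℕ}
    {F : (Fin (k + 1) → Cube N) → ℝ} {B : ℝ} (h : ∀ σ, |F σ| ≤ B) :
    |nRep ν m (pertW W s x e) (k + 1) F| ≤ B := by
  rw [pertW_eq]; exact abs_nRep_le ν hm (wbdd_tiltW (hb _) _) h

include hm hb in
lemma fl_nonneg (s : ℝ) (P : Fin L) (x : Fin L → ℝ) : 0 ≤ fl ν law m W s P x :=
  integral_nonneg fun e => nRep_pert_nonneg ν hm hb s x e fun _ => abs_nonneg _

include hm hb in
lemma fl_le [NeZero N] (s : ℝ) (P : Fin L) (x : Fin L → ℝ) :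
    fl ν law m W s P x ≤ 2 * ∫ e : D × (PertIdx N L → ℝ), absJ e.2 ∂famLaw law N L := by
  have hbi : Integrable (fun e : D × (PertIdx N L → ℝ) => absJ e.2) (famLaw law N L) :=
    (memLp_famAbsJ law).integrable one_le_two
  set M := ∫ e : D × (PertIdx N L → ℝ), absJ e.2 ∂famLaw law N L with hM
  have hc : |obsMean ν law m W s P x| ≤ M := by
    rw [← Real.norm_eq_abs]
    exact norm_integral_le_of_norm_le hbi
      (ae_of_all _ fun e => abs_nRep_pert_le ν hm hb s x e fun σ => abs_gObs_le P _ _)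
  refine le_trans (integral_mono_of_nonneg (ae_of_all _ fun e =>
    nRep_pert_nonneg ν hm hb s x e fun σ => abs_nonneg _)
    (hbi.add (integrable_const M)) (ae_of_all _ fun e => ?_)) (le_of_eq ?_)
  · refine (le_abs_self _).trans (abs_nRep_pert_le ν hm hb s x e fun σ => ?_)
    rw [abs_abs]
    exact (abs_sub _ _).trans (add_le_add (abs_gObs_le P _ _) hc)
  · simp only [Pi.add_apply]
    rw [integral_add hbi (integrable_const M)]
    simp [hM]
    ring

include hm hW hb

/-- The mean of the observable, by parts. -/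
theorem obsMean_eq [NeZero N] (s : ℝ) (x : Fin L → ℝ) (P : Fin L) :
    obsMean ν law m W s P x = s * x P * (1 / 4) ^ (P.val + 1) *
      (1 - eRep ν law m W s x 2 fun σ : Fin 2 → Cube N => overlap (σ 0) (σ 1) ^ (P.val + 1)) := by
  have h := eRep_obs (s := s) (x := x) ν law hm hW hb P 0 (fun _ : Fin 1 → Cube N => (1 : ℝ))
  have e1 : eRep ν law m W s x 1 (fun _ : Fin 1 → Cube N => (1 : ℝ)) = 1 := by
    simp [eRep, nRep_pert_const ν hm hb]
  simp only [one_mul, zero_add] at h
  rw [obsMean, h, e1, show (Fin.last 1 : Fin 2) = 1 from rfl]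
  simp

omit hm hW hb in
/-- The first and second moments of an observable. -/
lemma var_facts (hm : Exps m) {w : Cube N → (Fin r → β) → ℝ} (hw : WBdd C w) (v : Cube N → ℝ)
    {B : ℝ} (hv : ∀ σ, |v σ| ≤ B) :
    0 ≤ nRep ν m w 1 (fun σ => v (σ 0) ^ 2) - nRep ν m w 2 (fun σ => v (σ 0) * v (σ 1)) ∧
      nRep ν m w 1 (fun σ => v (σ 0) ^ 2) - nRep ν m w 2 (fun σ => v (σ 0) * v (σ 1)) ≤ 2 * B ^ 2 := by
  set p := nRep ν m w 1 (fun σ => v (σ 0))
  have h1 := nRep_mono ν hm hw (F := fun _ : Fin 1 → Cube N => (0 : ℝ))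
    (G := fun σ => v (σ 0) ^ 2 + ((-2 * p) * v (σ 0) + p ^ 2))
    fun σ => by nlinarith [sq_nonneg (v (σ 0) - p)]
  rw [nRep_const ν hm hw, nRep_add, nRep_add, nRep_const_mul, nRep_const ν hm hw] at h1
  have h2 : 0 ≤ nRep ν m w 1 (fun σ => v (σ 0) ^ 2) - p ^ 2 := by
    simp only [p] at h1 ⊢; linarith
  refine ⟨(mul_nonneg (weight_zero_pos hm).le h2).trans (thermal_var ν hm hw v), ?_⟩
  have h3 := abs_nRep_le ν hm hw (B := B ^ 2) (F := fun σ : Fin 1 → Cube N => v (σ 0) ^ 2)
    fun σ => by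
      rw [abs_of_nonneg (sq_nonneg _), ← sq_abs]
      exact pow_le_pow_left₀ (abs_nonneg _) (hv _) 2
  have h4 := abs_nRep_le ν hm hw (B := B ^ 2) (F := fun σ : Fin 2 → Cube N => v (σ 0) * v (σ 1))
    fun σ => by
      rw [abs_mul, sq]
      exact mul_le_mul (hv _) (hv _) (abs_nonneg _) ((abs_nonneg _).trans (hv (σ 0)))
  linarith [(abs_le.1 h3).2, (abs_le.1 h4).1]

omit hm hW hb in
/-- The distance from a constant against the thermal variance. -/
lemma abs_sub_le_thermal (hm : Exps m) {w : Cube N → (Fin r → β) → ℝ} (hw : WBdd C w)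
    (v : Cube N → ℝ) {s : ℝ} (hs : 0 < s) (c : ℝ) :
    nRep ν m w 1 (fun σ => |v (σ 0) - c|) ≤
      1 / weight m 0 * (nRep ν m w 1 (fun σ => v (σ 0) ^ 2) -
          nRep ν m w 2 (fun σ => v (σ 0) * v (σ 1))) / (2 * s) + s / 2 +
        |nRep ν m w 1 (fun σ => v (σ 0)) - c| := by
  have h2 := thermal_var ν hm hw v
  rw [← le_div_iff₀' (weight_zero_pos hm)] at h2
  set p := nRep ν m w 1 (fun σ => v (σ 0)) with hp
  have h1 := nRep_mono ν hm hw
    (F := fun σ : Fin 1 → Cube N => |v (σ 0) - c|)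
    (G := fun σ => (2 * s)⁻¹ * v (σ 0) ^ 2 + ((-(p / s)) * v (σ 0) +
      ((2 * s)⁻¹ * p ^ 2 + s / 2 + |p - c|))) fun σ => by
    have h3 := abs_sub_le (v (σ 0)) p c
    have h4 : (2 * s)⁻¹ * v (σ 0) ^ 2 + ((-(p / s)) * v (σ 0) +
        ((2 * s)⁻¹ * p ^ 2 + s / 2)) - |v (σ 0) - p| = (|v (σ 0) - p| - s) ^ 2 / (2 * s) := by
      rw [show (|v (σ 0) - p| - s) ^ 2 = (v (σ 0) - p) ^ 2 - 2 * s * |v (σ 0) - p| + s ^ 2 by
        rw [← sq_abs (v (σ 0) - p)]; ring]
      field_simp
      ring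
    have h5 : 0 ≤ (|v (σ 0) - p| - s) ^ 2 / (2 * s) := by positivity
    linarith
  rw [nRep_add, nRep_add, nRep_const_mul, nRep_const_mul, nRep_const ν hm hw, ← hp] at h1
  refine h1.trans ?_
  have h6 : (2 * s)⁻¹ * nRep ν m w 1 (fun σ => v (σ 0) ^ 2) +
      (-(p / s) * p + ((2 * s)⁻¹ * p ^ 2 + s / 2 + |p - c|)) =
      (nRep ν m w 1 (fun σ => v (σ 0) ^ 2) - p ^ 2) / (2 * s) + s / 2 + |p - c| := by
    field_simp; ring
  rw [h6, one_div_mul_eq_div]
  gcongr

/-- The mean of the observable is small. -/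
lemma abs_obsMean_le [NeZero N] {s t : ℝ} (hs : 0 ≤ s) (ht0 : 0 ≤ t) (ht : t ≤ 3)
    (x : Fin L → ℝ) (P : Fin L) :
    |s * obsMean ν law m W s P (Function.update x P t)| ≤ 2 * s ^ 2 := by
  rw [obsMean_eq ν law hm hW hb, Function.update_self]
  obtain ⟨r, hr⟩ : ∃ r, r = eRep ν law m W s (Function.update x P t) 2
      fun σ : Fin 2 → Cube N => overlap (σ 0) (σ 1) ^ (P.val + 1) := ⟨_, rfl⟩
  have hr1 : |r| ≤ 1 := hr ▸ abs_eRep_le ν law hm hb 1 fun σ => abs_overlap_pow_le _ _ _
  obtain ⟨q, hq⟩ : ∃ q : ℝ, q = (1 / 4) ^ (P.val + 1) := ⟨_, rfl⟩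
  have hq0 : 0 ≤ q := hq ▸ by positivity
  have hq1 : q ≤ 1 / 4 := hq ▸ pow_le_of_le_one (by norm_num) (by norm_num) (by omega)
  rw [← hr, ← hq]
  rw [show s * (s * t * q * (1 - r)) = s ^ 2 * (t * q * (1 - r)) by ring, abs_mul,
    abs_of_nonneg (sq_nonneg s), mul_comm (2 : ℝ)]
  refine mul_le_mul_of_nonneg_left ?_ (sq_nonneg s)
  rw [abs_mul, abs_of_nonneg (mul_nonneg ht0 hq0)]
  have h2 : |1 - r| ≤ 2 := by linarith [abs_sub (1 : ℝ) r, abs_one (α := ℝ)]
  calc t * q * |1 - r| ≤ (3 * (1 / 4)) * 2 :=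
        mul_le_mul (mul_le_mul ht hq1 hq0 (by norm_num)) h2 (abs_nonneg _) (by norm_num)
    _ ≤ 2 := by norm_num

omit hb hm in
lemma measW_update (s : ℝ) (x : Fin L → ℝ) (P : Fin L) :
    MeasW fun z : ℝ × (D × (PertIdx N L → ℝ)) => pertW W s (Function.update x P z.1) z.2 := fun σ =>
  ((measW_pertW hW s (L := L)) σ).comp
    ((((measurable_update x (a := P)).comp (measurable_fst.comp measurable_fst)).prodMk
      (measurable_snd.comp measurable_fst)).prodMk measurable_snd)

omit hW in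
lemma pert_tangent (s : ℝ) (x : Fin L → ℝ) (P : Fin L) (t u : ℝ) (e : D × (PertIdx N L → ℝ)) :
    (u - t) * nRep ν m (pertW W s (Function.update x P t) e) 1 (fun σ => s * gObs P e.2 (σ 0)) ≤
      Phi ν m (pertW W s (Function.update x P u) e) -
        Phi ν m (pertW W s (Function.update x P t) e) := by
  rw [pertW_eq, pertW_eq]
  refine (tangent ν hm (hb e.1) (pertH s (Function.update x P t) e.2)
    (fun σ => s * gObs P e.2 σ) (u - t)).trans_eq ?_
  congr 2
  funext σ η
  rw [tiltW, tiltW, pertH_update s x P u, pertH_update s x P t]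
  ring_nf

omit hW in
lemma pert_ftc (s : ℝ) (x : Fin L → ℝ) (P : Fin L) (e : D × (PertIdx N L → ℝ))
    (hmv : Measurable fun t : ℝ =>
      nRep ν m (pertW W s (Function.update x P t) e) 1 (fun σ => (s * gObs P e.2 (σ 0)) ^ 2) -
        nRep ν m (pertW W s (Function.update x P t) e) 2
          (fun σ => (s * gObs P e.2 (σ 0)) * (s * gObs P e.2 (σ 1)))) :
    ∫ t in Set.Icc (1 : ℝ) 2,
        (nRep ν m (pertW W s (Function.update x P t) e) 1 (fun σ => (s * gObs P e.2 (σ 0)) ^ 2) -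
          nRep ν m (pertW W s (Function.update x P t) e) 2
            (fun σ => (s * gObs P e.2 (σ 0)) * (s * gObs P e.2 (σ 1)))) =
      nRep ν m (pertW W s (Function.update x P 2) e) 1 (fun σ => s * gObs P e.2 (σ 0)) -
        nRep ν m (pertW W s (Function.update x P 1) e) 1 (fun σ => s * gObs P e.2 (σ 0)) := by
  have hpert : ∀ t, pertW W s (Function.update x P t) e = tiltW (W e.1) fun σ =>
      pertH s (Function.update x P 0) e.2 σ + t * (s * gObs P e.2 σ) := fun t =>
    congrArg (tiltW (W e.1)) (funext fun σ => pertH_update s x P t e.2 σ)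
  simp only [hpert] at hmv ⊢
  exact thermal_ftc ν hm (hb e.1) _ (fun σ => s * gObs P e.2 σ) hmv

/-- The fluctuation averaged over one tuning parameter. -/
theorem average_fl_le [NeZero N] {s : ℝ} (hs : 0 < s) {b y V : ℝ} (hb0 : 0 < b) (hy : 0 < y)
    (hy1 : y ≤ 1) (P : Fin L) {x : Fin L → ℝ} (hx : ∀ Q, |x Q| ≤ 3)
    (hV : ∀ x' : Fin L → ℝ, (∀ Q, |x' Q| ≤ 3) → variance (pertPhi ν m W s x') law ≤ V) :
    ∫ t in Set.Icc (1 : ℝ) 2, fl ν law m W s P (Function.update x P t) ≤
      (2 / weight m 0 + 1 / 2) + 3 * ((3 * s ^ 2 + V) / (2 * b) + b / 2) / (y * s) + 8 * y * s := by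
  set v : D × (PertIdx N L → ℝ) → Cube N → ℝ := fun e σ => s * gObs P e.2 σ with hv
  set T : ℝ → D × (PertIdx N L → ℝ) → Cube N → (Fin r → β) → ℝ :=
    fun t e => pertW W s (Function.update x P t) e with hT
  have hTm := measW_update hW s x P
  have hvm : ∀ σ, Measurable fun e : D × (PertIdx N L → ℝ) => v e σ := fun σ =>
    ((measurable_gObs P σ).comp measurable_snd).const_mul s
  have hvb : ∀ e σ, |v e σ| ≤ s * absJ e.2 := fun e σ => by
    rw [hv, abs_mul, abs_of_pos hs]
    exact mul_le_mul_of_nonneg_left (abs_gObs_le P _ σ) hs.le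
  have hwb : ∀ t e, WBdd (C * Real.exp (∑ σ, |pertH s (Function.update x P t) e.2 σ|)) (T t e) :=
    fun t e => wbdd_tiltW (hb _) _
  set p : ℝ → D × (PertIdx N L → ℝ) → ℝ := fun t e =>
    nRep ν m (T t e) 1 (fun σ => v e (σ 0)) with hp
  set w : ℝ → D × (PertIdx N L → ℝ) → ℝ := fun t e =>
    nRep ν m (T t e) 1 (fun σ => v e (σ 0) ^ 2) -
      nRep ν m (T t e) 2 (fun σ => v e (σ 0) * v e (σ 1)) with hw
  set q : ℝ → D × (PertIdx N L → ℝ) → ℝ := fun t e =>
    nRep ν m (T t e) 1 (fun σ => |v e (σ 0) - ∫ e', p t e' ∂famLaw law N L|) with hq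
  have hpm : Measurable (Function.uncurry p) :=
    measurable_nRep_param ν m hTm 1 fun σ => (hvm _).comp measurable_snd
  have hwm : Measurable (Function.uncurry w) :=
    (measurable_nRep_param ν m hTm 1 fun σ => ((hvm _).comp measurable_snd).pow_const 2).sub
      (measurable_nRep_param ν m hTm 2 fun σ =>
        ((hvm _).comp measurable_snd).mul ((hvm _).comp measurable_snd))
  have hJ := (memLp_famAbsJ (N := N) (L := L) law).const_mul s
  have hmean : ∀ t, ∫ e, p t e ∂famLaw law N L =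
      s * obsMean ν law m W s P (Function.update x P t) := fun t => by
    simp only [obsMean, ← integral_const_mul, ← nRep_const_mul, hp, hv, hT]
  have hx' : ∀ t ∈ Set.Icc (0 : ℝ) 3, ∀ Q, |Function.update x P t Q| ≤ 3 := fun t ht Q => by
    by_cases hQ : Q = P
    · subst hQ
      rw [Function.update_self, abs_of_nonneg ht.1]
      exact ht.2
    · rw [Function.update_of_ne hQ]; exact hx Q
  have h1 : ∀ t e, |p t e| ≤ s * absJ e.2 := fun t e => abs_nRep_le ν hm (hwb t e) fun σ => hvb e _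
  have h2 : ∀ t e, 0 ≤ w t e := fun t e => by
    simp only [hw]
    exact (var_facts (C := C * Real.exp (∑ σ, |pertH s (Function.update x P t) e.2 σ|))
      ν hm (hwb t e) (v e) (hvb e)).1
  have h3 : ∀ t e, w t e ≤ 2 * (s * absJ e.2) ^ 2 := fun t e => by
    simp only [hw]
    exact (var_facts (C := C * Real.exp (∑ σ, |pertH s (Function.update x P t) e.2 σ|))
      ν hm (hwb t e) (v e) (hvb e)).2
  have h4 : ∀ t, Integrable (fun e => Phi ν m (T t e)) (famLaw law N L) := fun t =>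
    (memLp_Phi ν law hm hW hb s _).integrable one_le_two
  have h5 : ∀ t u e, (u - t) * p t e ≤ Phi ν m (T u e) - Phi ν m (T t e) := fun t u e => by
    simp only [hp, hT, hv]
    exact pert_tangent ν hm hb s x P t u e
  have h6 : ∀ e, ∫ t in Set.Icc (1 : ℝ) 2, w t e = p 2 e - p 1 e := fun e => by
    have h0 := hwm.comp (measurable_prodMk_right (y := e))
    simp only [Function.comp_def, Function.uncurry_apply_pair] at h0
    have hmv : Measurable fun t : ℝ => w t e := h0
    simp only [hw, hp, hT, hv] at hmv ⊢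
    exact pert_ftc ν hm hb s x P e hmv
  have h7 : ∀ t e, 0 ≤ q t e := fun t e =>
    nRep_pert_nonneg ν hm hb s _ e fun σ => abs_nonneg _
  have h8 : ∀ t e, q t e ≤ 1 / weight m 0 * w t e / (2 * s) + s / 2 +
      |p t e - ∫ e', p t e' ∂famLaw law N L| := fun t e =>
    abs_sub_le_thermal ν hm (hwb t e) (v e) hs _
  have h9 : ∀ t ∈ Set.Icc (0 : ℝ) 3, ∫ e, |Phi ν m (T t e) -
      ∫ e', Phi ν m (T t e') ∂famLaw law N L| ∂famLaw law N L ≤
        (3 * s ^ 2 + V) / (2 * b) + b / 2 := fun t ht =>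
    mean_abs_dev_le (memLp_Phi ν law hm hW hb s _)
      (Phi_variance ν law hm hW hb s (hx' t ht) (hV _ (hx' t ht))) hb0
  have h10 : ∀ t ∈ Set.Icc (0 : ℝ) 3, |∫ e, p t e ∂famLaw law N L| ≤ 2 * s ^ 2 := fun t ht => by
    rw [hmean]; exact abs_obsMean_le ν law hm hW hb hs.le ht.1 ht.2 x P
  have hb1 : Integrable (fun e : D × (PertIdx N L → ℝ) => s * absJ e.2) (famLaw law N L) :=
    hJ.integrable one_le_two
  have hb2 : Integrable (fun e : D × (PertIdx N L → ℝ) => 2 * (s * absJ e.2) ^ 2) (famLaw law N L) :=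
    hJ.integrable_sq.const_mul 2
  have h := self_average hb1 hb2 hpm hwm h1 h2 h3 h4 h5 h6
    (one_div_nonneg.2 (weight_zero_pos hm).le) hs hy hy1 h7 h8 h9 h10
  have e : ∀ t : ℝ, ∫ d, q t d ∂famLaw law N L = s * fl ν law m W s P (Function.update x P t) :=
    fun t => by
      simp only [fl, hq, hmean, ← integral_const_mul, ← nRep_const_mul, hv, hT]
      simp only [← mul_sub, abs_mul, abs_of_pos hs]
  simp only [e, integral_const_mul] at h
  rw [← le_div_iff₀' hs] at h
  refine h.trans (le_of_eq ?_)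
  field_simp
  ring

/-- The identity up to the fluctuation. -/
theorem identity_le [NeZero N] {s : ℝ} {x : Fin L → ℝ} (hs : 0 < s) (P : Fin L) (hx : 1 ≤ x P)
    (n : ℕ) {F : (Fin (n + 1) → Cube N) → ℝ} (hF : ∀ σ, |F σ| ≤ 1) :
    |((n : ℝ) + 1) * eRep ν law m W s x (n + 2)
        (fun σ => F (fun l => σ l.castSucc) *
          overlap (σ 0) (σ (Fin.last (n + 1))) ^ (P.val + 1)) -
      (eRep ν law m W s x (n + 1) F *
          eRep ν law m W s x 2 (fun σ : Fin 2 → Cube N => overlap (σ 0) (σ 1) ^ (P.val + 1)) +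
        ∑ l : Fin n,
          eRep ν law m W s x (n + 1) fun σ => F σ * overlap (σ 0) (σ l.succ) ^ (P.val + 1))| ≤
      4 ^ (P.val + 1) / s * fl ν law m W s P x := by
  set κ := s * x P * (1 / 4 : ℝ) ^ (P.val + 1) with hκ
  set c := obsMean ν law m W s P x with hc
  have hκpos : 0 < κ := mul_pos (mul_pos hs (by linarith)) (pow_pos (by norm_num) _)
  have hgi : Integrable (fun e : D × (PertIdx N L → ℝ) => absJ e.2) (famLaw law N L) :=
    (memLp_famAbsJ law).integrable one_le_two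
  have hgm : ∀ σ : Cube N, Measurable fun e : D × (PertIdx N L → ℝ) => gObs P e.2 σ := fun σ =>
    (measurable_gObs P σ).comp measurable_snd
  have iR : Integrable (fun e => nRep ν m (pertW W s x e) 1 fun σ => |gObs P e.2 (σ 0) - c|)
      (famLaw law N L) :=
    (hgi.add (integrable_const |c|)).mono'
      (measurable_nRep_param ν m (measW_pertW_fixed hW s x) 1
        fun σ => ((hgm _).sub measurable_const).abs).aestronglyMeasurable
      (ae_of_all _ fun e => abs_nRep_pert_le ν hm hb s x e fun σ => by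
        rw [abs_abs]; exact (abs_sub _ _).trans (add_le_add (abs_gObs_le P _ _) le_rfl))
  have iL : Integrable (fun e => nRep ν m (pertW W s x e) (n + 1)
      fun σ => F σ * gObs P e.2 (σ 0)) (famLaw law N L) :=
    hgi.mono'
      (measurable_nRep_param ν m (measW_pertW_fixed hW s x) _
        fun σ => (hgm _).const_mul (F σ)).aestronglyMeasurable
      (ae_of_all _ fun e => abs_nRep_pert_le ν hm hb s x e fun σ => by
        rw [abs_mul]
        exact (mul_le_of_le_one_left (abs_nonneg _) (hF σ)).trans (abs_gObs_le P _ _))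
  have key : |∫ e, nRep ν m (pertW W s x e) (n + 1) (fun σ => F σ * gObs P e.2 (σ 0))
      ∂famLaw law N L - c * eRep ν law m W s x (n + 1) F| ≤ fl ν law m W s P x := by
    rw [eRep, ← integral_const_mul,
      ← integral_sub iL ((integrable_nRep ν law hm hW hb n F).const_mul c)]
    refine abs_integral_le_integral_abs.trans (integral_mono_of_nonneg
      (ae_of_all _ fun e => abs_nonneg _) iR (ae_of_all _ fun e => ?_))
    beta_reduce
    have h1 := nRep_first ν hm (wbdd_tiltW (hb e.1) (pertH s x e.2)) n fun τ => |gObs P e.2 τ - c|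
    rw [← pertW_eq] at h1
    have habs : ∀ σ : Fin (n + 1) → Cube N,
        |F σ * gObs P e.2 (σ 0) + (-c) * F σ| ≤ |gObs P e.2 (σ 0) - c| := fun σ => by
      rw [show F σ * gObs P e.2 (σ 0) + (-c) * F σ = F σ * (gObs P e.2 (σ 0) - c) by ring, abs_mul]
      exact mul_le_of_le_one_left (abs_nonneg _) (hF _)
    have u1 := nRep_pert_mono ν hm hb s x e fun σ => (abs_le.1 (habs σ)).2
    have u2 := nRep_pert_mono ν hm hb s x e fun σ => (abs_le.1 (habs σ)).1
    rw [nRep_add, nRep_const_mul, h1] at u1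
    rw [nRep_add, nRep_const_mul, show (fun σ : Fin (n + 1) → Cube N => -|gObs P e.2 (σ 0) - c|) =
      fun σ => (-1 : ℝ) * |gObs P e.2 (σ 0) - c| from funext fun σ => (neg_one_mul _).symm,
      nRep_const_mul, h1] at u2
    exact abs_le.2 ⟨by linarith, by linarith⟩
  rw [eRep_obs ν law hm hW hb P n F, hc, obsMean_eq ν law hm hW hb, ← hκ] at key
  have hle : 1 / κ ≤ 4 ^ (P.val + 1) / s := by
    rw [div_le_div_iff₀ hκpos hs, hκ]
    have e : (4 : ℝ) ^ (P.val + 1) * (1 / 4) ^ (P.val + 1) = 1 := by rw [← mul_pow]; norm_num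
    calc 1 * s ≤ s * x P := by nlinarith
      _ = s * x P * ((4 : ℝ) ^ (P.val + 1) * (1 / 4) ^ (P.val + 1)) := by rw [e, mul_one]
      _ = _ := by ring
  refine le_trans ?_ (mul_le_mul_of_nonneg_right hle (fl_nonneg ν law hm hb s P x))
  rw [one_div_mul_eq_div, le_div_iff₀' hκpos]
  refine le_trans (le_of_eq ?_) key
  rw [← abs_of_pos hκpos, ← abs_mul, ← abs_neg, abs_of_pos hκpos]
  ring_nf

omit hm hW hb

/-- The error of the identity. -/
def ggErr (m : Fin r → ℝ) (W : D → Cube N → (Fin r → β) → ℝ) (p : ℕ) (x : Fin N → ℝ) : ℝ :=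
  if h : p < N then min 2 (4 ^ (p + 1) / scale N * fl ν law m W (scale N) ⟨p, h⟩ x) else 2

include hm hb in
lemma ggErr_bounds (p : ℕ) (x : Fin N → ℝ) :
    0 ≤ ggErr ν law m W p x ∧ ggErr ν law m W p x ≤ 2 := by
  unfold ggErr
  split_ifs
  · refine ⟨le_min zero_le_two (mul_nonneg (div_nonneg (by positivity) ?_)
      (fl_nonneg ν law hm hb _ _ x)), min_le_left _ _⟩
    exact Real.rpow_nonneg (Nat.cast_nonneg _) _
  · exact ⟨zero_le_two, le_rfl⟩

include hW in
lemma measurable_ggErr (p : ℕ) : Measurable (ggErr ν law m W p) := by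
  unfold ggErr
  split_ifs with h
  · exact measurable_const.min ((measurable_fl ν law hW _ _).const_mul _)
  · exact measurable_const

include hm hW hb

lemma gg_identity (p : ℕ) (x : Fin N → ℝ) (hx : ∀ i, x i ∈ Set.Icc (1 : ℝ) 2) (n : ℕ)
    {F : (Fin (n + 1) → Cube N) → ℝ} (hF : ∀ σ, |F σ| ≤ 1) :
    |((n : ℝ) + 1) * eRep ν law m W (scale N) x (n + 2)
        (fun σ => F (fun l => σ l.castSucc) * overlap (σ 0) (σ (Fin.last (n + 1))) ^ (p + 1)) -
      (eRep ν law m W (scale N) x (n + 1) F *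
          eRep ν law m W (scale N) x 2 (fun σ : Fin 2 → Cube N => overlap (σ 0) (σ 1) ^ (p + 1)) +
        ∑ l : Fin n, eRep ν law m W (scale N) x (n + 1)
          fun σ => F σ * overlap (σ 0) (σ l.succ) ^ (p + 1))| ≤
      ((n : ℝ) + 1) * ggErr ν law m W p x := by
  have b : ∀ (k : ℕ) (G : (Fin (k + 1) → Cube N) → ℝ), (∀ σ, |G σ| ≤ 1) →
      |eRep ν law m W (scale N) x (k + 1) G| ≤ 1 := fun k G h => abs_eRep_le ν law hm hb k h
  have hp : ∀ {α : Type} (u : α → ℝ) (a : α) (σ τ : Cube N), |u a| ≤ 1 →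
      |u a * overlap σ τ ^ (p + 1)| ≤ 1 := fun u a σ τ h => by
    rw [abs_mul]
    exact mul_le_one₀ h (abs_nonneg _) (abs_overlap_pow_le _ _ _)
  have h2 : |((n : ℝ) + 1) * eRep ν law m W (scale N) x (n + 2)
        (fun σ => F (fun l => σ l.castSucc) * overlap (σ 0) (σ (Fin.last (n + 1))) ^ (p + 1)) -
      (eRep ν law m W (scale N) x (n + 1) F *
          eRep ν law m W (scale N) x 2 (fun σ : Fin 2 → Cube N => overlap (σ 0) (σ 1) ^ (p + 1)) +
        ∑ l : Fin n, eRep ν law m W (scale N) x (n + 1)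
          fun σ => F σ * overlap (σ 0) (σ l.succ) ^ (p + 1))| ≤ ((n : ℝ) + 1) * 2 := by
    refine (abs_sub _ _).trans ?_
    rw [show ((n : ℝ) + 1) * 2 = ((n : ℝ) + 1) * 1 + (1 * 1 + ∑ _l : Fin n, (1 : ℝ)) by
      simp; ring]
    refine add_le_add ?_ ((abs_add_le _ _).trans (add_le_add ?_ ?_))
    · rw [abs_mul, abs_of_nonneg (by positivity : (0 : ℝ) ≤ (n : ℝ) + 1)]
      exact mul_le_mul_of_nonneg_left (b (n + 1) _ fun σ => hp _ _ _ _ (hF _)) (by positivity)
    · rw [abs_mul]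
      exact mul_le_mul (b n _ hF) (b 1 _ fun σ => abs_overlap_pow_le _ _ _) (abs_nonneg _)
        zero_le_one
    · exact (Finset.abs_sum_le_sum_abs _ _).trans
        (Finset.sum_le_sum fun l _ => b n _ fun σ => hp _ _ _ _ (hF _))
  unfold ggErr
  split_ifs with h
  · rw [mul_min_of_nonneg _ _ (by positivity : (0 : ℝ) ≤ (n : ℝ) + 1)]
    refine le_min h2 ?_
    have hN : 0 < N := by omega
    have : NeZero N := ⟨hN.ne'⟩
    have hs : 0 < scale N := Real.rpow_pos_of_pos (by exact_mod_cast hN) _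
    exact (identity_le ν law hm hW hb hs ⟨p, h⟩ (hx _).1 n hF).trans
      (le_mul_of_one_le_left
        (mul_nonneg (div_nonneg (by positivity) hs.le) (fl_nonneg ν law hm hb _ _ _))
        (le_add_of_nonneg_left (Nat.cast_nonneg _)))
  · exact h2

lemma integral_ggErr_le {p : ℕ} {V K : ℝ} (hp : p < N)
    (hV : ∀ x' : Fin N → ℝ, (∀ Q, |x' Q| ≤ 3) → variance (pertPhi ν m W (scale N) x') law ≤ V)
    (hK : 3 * scale N ^ 2 + V ≤ K * N) :
    ∫ x, ggErr ν law m W p x ∂xLaw N ≤ 4 ^ (p + 1) *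
      ((2 / weight m 0 + 1 / 2) / scale N + (3 * (K + 1) / 2 + 8) * (N : ℝ) ^ (-(1 / 8 : ℝ))) := by
  have hN : 0 < N := by omega
  have : NeZero N := ⟨hN.ne'⟩
  have hNr : (0 : ℝ) < N := by exact_mod_cast hN
  have hs : 0 < scale N := Real.rpow_pos_of_pos hNr _
  have hI : IsProbabilityMeasure (volume.restrict (Set.Icc (1 : ℝ) 2)) := ⟨by simp; norm_num⟩
  have hxl : IsProbabilityMeasure (xLaw N) := by unfold xLaw; infer_instance
  set y := (N : ℝ) ^ (-(1 / 8 : ℝ)) with hy
  have hy0 : 0 < y := Real.rpow_pos_of_pos hNr _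
  have hy1 : y ≤ 1 :=
    Real.rpow_le_one_of_one_le_of_nonpos (by exact_mod_cast hN) (by norm_num)
  have hsq : Real.sqrt N = y * scale N ^ 2 * y := by
    rw [hy, scale, ← Real.rpow_natCast, ← Real.rpow_mul hNr.le, ← Real.rpow_add hNr,
      ← Real.rpow_add hNr, Real.sqrt_eq_rpow]
    norm_num
  have hdm := measurable_ggErr (m := m) ν law hW p
  have hdb : ∀ x, ‖ggErr ν law m W p x‖ ≤ 2 := fun x => by
    rw [Real.norm_eq_abs, abs_of_nonneg (ggErr_bounds ν law hm hb p x).1]
    exact (ggErr_bounds ν law hm hb p x).2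
  have hmp := updateOne_preserving (fun _ : Fin N => volume.restrict (Set.Icc (1 : ℝ) 2)) ⟨p, hp⟩
  have e : ∫ x, ggErr ν law m W p x ∂xLaw N = ∫ x, ∫ t in Set.Icc (1 : ℝ) 2,
      ggErr ν law m W p (Function.update x ⟨p, hp⟩ t) ∂volume ∂xLaw N := by
    unfold xLaw
    conv_lhs => rw [← hmp.map_eq]
    rw [integral_map hmp.measurable.aemeasurable hdm.aestronglyMeasurable]
    exact integral_prod
      (fun z : (Fin N → ℝ) × ℝ => ggErr ν law m W p (Function.update z.1 ⟨p, hp⟩ z.2))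
      (Integrable.of_bound (hdm.comp hmp.measurable).aestronglyMeasurable _
        (ae_of_all _ fun z => hdb _))
  rw [e]
  have hae : ∀ᵐ x ∂xLaw N, ∀ i, |x i| ≤ 3 := by
    refine ae_all_iff.2 fun i => ?_
    unfold xLaw
    refine (measurePreserving_eval (fun _ : Fin N => volume.restrict (Set.Icc (1 : ℝ) 2)) i
      ).quasiMeasurePreserving.ae (p := fun t => |t| ≤ 3) ?_
    rw [ae_restrict_iff' measurableSet_Icc]
    exact ae_of_all _ fun t ht => by rw [abs_of_nonneg (by linarith [ht.1])]; linarith [ht.2]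
  refine (integral_mono_of_nonneg
    (ae_of_all _ fun x => integral_nonneg fun t => (ggErr_bounds ν law hm hb p _).1)
    (integrable_const (4 ^ (p + 1) *
      ((2 / weight m 0 + 1 / 2) / scale N + (3 * (K + 1) / 2 + 8) * y)))
    (hae.mono fun x hx => ?_)).trans_eq (by simp)
  have hfi : Integrable (fun t => fl ν law m W (scale N) ⟨p, hp⟩ (Function.update x ⟨p, hp⟩ t))
      (volume.restrict (Set.Icc (1 : ℝ) 2)) :=
    Integrable.of_bound
      ((measurable_fl ν law hW _ ⟨p, hp⟩).comp (measurable_update x)).aestronglyMeasurable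
      _ (ae_of_all _ fun t => by
        rw [Real.norm_eq_abs, abs_of_nonneg (fl_nonneg ν law hm hb _ _ _)]
        exact fl_le ν law hm hb _ _ _)
  refine (integral_mono_of_nonneg (ae_of_all _ fun t => (ggErr_bounds ν law hm hb p _).1)
    (hfi.const_mul (4 ^ (p + 1) / scale N)) (ae_of_all _ fun t => ?_)).trans ?_
  · simp only [ggErr, dif_pos hp]
    exact min_le_right _ _
  rw [integral_const_mul]
  refine (mul_le_mul_of_nonneg_left (average_fl_le ν law hm hW hb hs (Real.sqrt_pos.2 hNr) hy0 hy1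
    ⟨p, hp⟩ hx hV) (by positivity : (0 : ℝ) ≤ 4 ^ (p + 1) / scale N)).trans ?_
  have h1 : (3 * scale N ^ 2 + V) / (2 * Real.sqrt N) ≤ K / 2 * Real.sqrt N := by
    rw [div_le_iff₀ (mul_pos two_pos (Real.sqrt_pos.2 hNr))]
    calc _ ≤ K * N := hK
      _ = _ := by linear_combination (-K) * Real.mul_self_sqrt hNr.le
  rw [div_mul_eq_mul_div, div_le_iff₀ hs]
  beta_reduce
  rw [mul_assoc ((4 : ℝ) ^ (p + 1))]
  refine mul_le_mul_of_nonneg_left (a := (4 : ℝ) ^ (p + 1)) ?_ (by positivity)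
  have h3 : 3 * ((3 * scale N ^ 2 + V) / (2 * Real.sqrt N) + Real.sqrt N / 2) / (y * scale N) ≤
      3 * (K / 2 * Real.sqrt N + Real.sqrt N / 2) / (y * scale N) :=
    div_le_div_of_nonneg_right (by linarith) (by positivity)
  have h4 : 3 * (K / 2 * Real.sqrt N + Real.sqrt N / 2) / (y * scale N) =
      3 * (K + 1) / 2 * y * scale N := by
    rw [hsq]; field_simp
  rw [add_mul, div_mul_cancel₀ _ hs.ne']
  linarith

omit hm hW hb

/-- Module C. -/
theorem cascGG_stmt : CascGGStmt := by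
  intro r m hm K
  refine ⟨fun N p => if p < N then 4 ^ (p + 1) * ((2 / weight m 0 + 1 / 2) / scale N +
    (3 * (3 + K + 1) / 2 + 8) * (N : ℝ) ^ (-(1 / 8 : ℝ))) else 2, fun p => ?_, ?_⟩
  · have h1 : Tendsto scale atTop atTop :=
      (tendsto_rpow_atTop (by norm_num)).comp tendsto_natCast_atTop_atTop
    have h2 : Tendsto (fun N : ℕ => (N : ℝ) ^ (-(1 / 8 : ℝ))) atTop (𝓝 0) :=
      (tendsto_rpow_neg_atTop (by norm_num)).comp tendsto_natCast_atTop_atTop
    have h3 := (((tendsto_const_nhds (x := 2 / weight m 0 + 1 / 2)).div_atTop h1).add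
      (h2.const_mul (3 * (3 + K + 1) / 2 + 8))).const_mul ((4 : ℝ) ^ (p + 1))
    simp only [mul_zero, add_zero] at h3
    refine h3.congr' ?_
    filter_upwards [eventually_gt_atTop p] with N hN
    simp [hN]
  · intro N hN β _ ν _ D _ law _ W C hW hb hV
    refine ⟨ggErr ν law m W, measurable_ggErr ν law hW, ggErr_bounds ν law hm hb, fun p => ?_,
      fun p x hx n F hF => gg_identity ν law hm hW hb p x hx n hF⟩
    have hxl : IsProbabilityMeasure (xLaw N) := by
      have : IsProbabilityMeasure (volume.restrict (Set.Icc (1 : ℝ) 2)) := ⟨by simp; norm_num⟩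
      unfold xLaw; infer_instance
    beta_reduce
    split_ifs with hp
    · refine integral_ggErr_le (V := K * N) (K := 3 + K) ν law hm hW hb hp hV ?_
      have hN1 : (1 : ℝ) ≤ N := by exact_mod_cast hN
      have h1 : scale N ^ 2 ≤ N := by
        rw [scale, ← Real.rpow_natCast, ← Real.rpow_mul (by positivity)]
        exact (Real.rpow_le_rpow_of_exponent_le hN1 (by norm_num)).trans_eq (Real.rpow_one _)
      linarith
    · refine (integral_mono_of_nonneg (ae_of_all _ fun x => (ggErr_bounds ν law hm hb p x).1)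
        (integrable_const (2 : ℝ)) (ae_of_all _ fun x => (ggErr_bounds ν law hm hb p x).2)).trans_eq
        (by simp)

end Vale.Agent.P166.NW.GG
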