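import Vale.Agent.P166.NW.Base
import Vale.Agent.P157.Parisi.Perturb.Identity

/-!
Nested replica means as limits of Gibbs averages: on a finite cascade, the law of the configuration
is a Gibbs measure on the cube.
-/

noncomputable section

open MeasureTheory ProbabilityTheory Filter
open scoped BigOperators Topology

namespace Vale.Agent.P166.NW.GG

open Vale.Agent.P157 Vale.Agent.P157.Parisi Vale.Agent.P157.Parisi.Up
open Vale.Agent.P168 (CascTree cascLaw cascSum cascMean cascFilter genNested)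
open Vale.Agent.P168.Cascade
open Vale.Agent.P168.Limit (gw logZ gav rav gw_nonneg gw_le_one abs_rav_le)
open Vale.Agent.P168.Upper (cascFilter_neBot)

variable {β : Type} [MeasurableSpace β] {r N : ℕ}

/-- Weights times a factor depending on the configuration only. -/
def tiltW (w : Cube N → (Fin r → β) → ℝ) (h : Cube N → ℝ) : Cube N → (Fin r → β) → ℝ :=
  fun σ η => w σ η * Real.exp (h σ)

/-- The Hamiltonian on the cube of a finite cascade. -/
def finH (m : Fin r → ℝ) (n : Fin r → ℕ) (w : Cube N → (Fin r → β) → ℝ) (t : CascTree β r n) :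
    Cube N → ℝ :=
  fun σ => Real.log (cascMean m n (w σ) t)

lemma wbdd_tiltW {C : ℝ} {w : Cube N → (Fin r → β) → ℝ} (hw : WBdd C w) (h : Cube N → ℝ) :
    WBdd (C * Real.exp (∑ σ, |h σ|)) (tiltW w h) := fun σ => by
  have hh : |h σ| ≤ ∑ τ, |h τ| :=
    Finset.single_le_sum (f := fun τ => |h τ|) (fun τ _ => abs_nonneg _) (Finset.mem_univ σ)
  refine ⟨mul_pos (hw σ).pos (Real.exp_pos _), (hw σ).meas.mul_const _, fun η => ⟨?_, ?_⟩⟩
  · rw [mul_inv, ← Real.exp_neg]
    exact mul_le_mul ((hw σ).mem η).1 (Real.exp_le_exp.2 (neg_le.1 ((neg_le_abs _).trans hh)))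
      (Real.exp_pos _).le ((hw σ).gt_zero η).le
  · exact mul_le_mul ((hw σ).mem η).2 (Real.exp_le_exp.2 ((le_abs_self _).trans hh))
      (Real.exp_pos _).le (hw σ).pos.le

/-- A common bound, at least one. -/
lemma bdd_sumW {C : ℝ} {w : Cube N → (Fin r → β) → ℝ} (hw : WBdd C w) :
    Bdd (max 1 (Fintype.card (Cube N) * C)) (sumW w) :=
  bdd_mono (le_max_right _ _) (bdd_sum hw)

lemma measurable_finH (m : Fin r → ℝ) (n : Fin r → ℕ) {C : ℝ} {w : Cube N → (Fin r → β) → ℝ}
    (hw : WBdd C w) (σ : Cube N) : Measurable fun t : CascTree β r n => finH m n w t σ :=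
  ((measurable_cascSum m n (hw σ).meas).div (measurable_cascSum m n measurable_const)).log

lemma measurable_gw_finH (m : Fin r → ℝ) (n : Fin r → ℕ) {C : ℝ} {w : Cube N → (Fin r → β) → ℝ}
    (hw : WBdd C w) (h : Cube N → ℝ) (σ : Cube N) :
    Measurable fun t : CascTree β r n => gw (fun τ => finH m n w t τ + h τ) σ :=
  ((measurable_finH m n hw σ).add_const _).exp.div
    (Finset.measurable_sum _ fun τ _ => ((measurable_finH m n hw τ).add_const _).exp)

lemma measurable_rav_finH (m : Fin r → ℝ) (n : Fin r → ℕ) {C : ℝ}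
    {w : Cube N → (Fin r → β) → ℝ} (hw : WBdd C w) (h : Cube N → ℝ) (k : ℕ)
    (F : (Fin k → Cube N) → ℝ) :
    Measurable fun t : CascTree β r n => rav k (fun τ => finH m n w t τ + h τ) F :=
  Finset.measurable_sum _ fun _ _ =>
    (Finset.measurable_prod _ fun _ _ => measurable_gw_finH m n hw h _).mul_const _

lemma measurable_logZ_finH (m : Fin r → ℝ) (n : Fin r → ℕ) {C : ℝ}
    {w : Cube N → (Fin r → β) → ℝ} (hw : WBdd C w) (h : Cube N → ℝ) :
    Measurable fun t : CascTree β r n => logZ fun τ => finH m n w t τ + h τ :=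
  (Finset.measurable_sum _ fun τ _ => ((measurable_finH m n hw τ).add_const _).exp).log

section good

variable {C : ℝ} {w : Cube N → (Fin r → β) → ℝ} {m : Fin r → ℝ} {n : Fin r → ℕ}
  {t : CascTree β r n}

lemma cascMean_pos {Y : (Fin r → β) → ℝ} (hY : Bdd C Y) (hn : ∀ i, 0 < n i)
    (ht : GoodTree r n t) : 0 < cascMean m n Y t :=
  div_pos (cascSum_pos hY m hn ht).2 (cascSum_one_pos m hn ht)

omit [MeasurableSpace β] in
lemma cascSum_sumW (m : Fin r → ℝ) (n : Fin r → ℕ) (w : Cube N → (Fin r → β) → ℝ)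
    (t : CascTree β r n) : cascSum r m n (sumW w) t = ∑ σ, cascSum r m n (w σ) t := by
  simp only [cascSum_eq_sum_leaves, sumW, Finset.mul_sum]
  exact Finset.sum_comm

lemma exp_finH (hw : WBdd C w) (hn : ∀ i, 0 < n i) (ht : GoodTree r n t) (σ : Cube N) :
    Real.exp (finH m n w t σ) = cascMean m n (w σ) t :=
  Real.exp_log (cascMean_pos (hw σ) hn ht)

lemma gw_finH (hw : WBdd C w) (hn : ∀ i, 0 < n i) (ht : GoodTree r n t) (σ : Cube N) :
    gw (finH m n w t) σ = ratio m n (sumW w) (w σ) t := by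
  simp only [gw, exp_finH hw hn ht, cascMean, ← Finset.sum_div, ← cascSum_sumW]
  rw [div_div_div_cancel_right₀ (cascSum_one_pos m hn ht).ne', ratio]

lemma logZ_finH (hw : WBdd C w) (hn : ∀ i, 0 < n i) (ht : GoodTree r n t) :
    logZ (finH m n w t) = Real.log (cascMean m n (sumW w) t) := by
  simp only [logZ, exp_finH hw hn ht, cascMean, ← Finset.sum_div, ← cascSum_sumW]

lemma finH_tiltW (hw : WBdd C w) (hn : ∀ i, 0 < n i) (ht : GoodTree r n t) (h : Cube N → ℝ) :
    finH m n (tiltW w h) t = fun σ => finH m n w t σ + h σ := by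
  funext σ
  have e : cascMean m n (tiltW w h σ) t = Real.exp (h σ) * cascMean m n (w σ) t := by
    rw [cascMean, cascMean, show tiltW w h σ = fun η => Real.exp (h σ) * w σ η from
      funext fun η => mul_comm _ _, cascSum_smul, mul_div_assoc]
  simp only [finH, e]
  rw [Real.log_mul (Real.exp_pos _).ne' (cascMean_pos (hw σ) hn ht).ne', Real.log_exp, add_comm]

end good

variable (ν : Measure β) [IsProbabilityMeasure ν] {m : Fin r → ℝ} {C : ℝ}
  {w : Cube N → (Fin r → β) → ℝ}

omit [IsProbabilityMeasure ν] in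
lemma tiltMoment_smul {k : ℕ} (m : Fin r → ℝ) (Y : (Fin r → β) → ℝ)
    (g : Fin k → (Fin r → β) → ℝ) (c : ℝ) :
    tiltMoment ν m Y (fun a η => c * g a η) = c ^ k * tiltMoment ν m Y g := by
  simp only [tiltMoment, Finset.prod_mul_distrib, Finset.prod_const, Finset.card_univ,
    Fintype.card_fin, mul_left_comm _ (c ^ k), integral_const_mul, ← Finset.mul_sum]

/-- The limit of the products of ratios of weights. -/
lemma tendsto_prod_ratio (hm : Exps m) (hw : WBdd C w) {k : ℕ} (σ : Fin (k + 1) → Cube N) :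
    Tendsto (fun n => ∫ t, ∏ l, ratio m n (sumW w) (w (σ l)) t ∂cascLaw ν r n) (cascFilter r)
      (𝓝 (tiltMoment ν m (sumW w) fun l => w (σ l))) := by
  have hC : 0 < C := (hw default).pos
  have hlim := (integral_prod_ratio_tendsto ν k hm (le_max_left _ _) (bdd_sumW hw)
    (g := fun l η => C⁻¹ * w (σ l) η) (fun l => (hw _).meas.const_mul _) fun l η => by
      rw [abs_mul, abs_of_pos (inv_pos.2 hC), abs_of_pos ((hw _).gt_zero η),
        inv_mul_le_iff₀ hC, mul_one]
      exact ((hw _).mem η).2).const_mul (C ^ (k + 1))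
  rw [tiltMoment_smul, ← mul_assoc, ← mul_pow, mul_inv_cancel₀ hC.ne', one_pow, one_mul] at hlim
  refine hlim.congr fun n => ?_
  rw [← integral_const_mul]
  refine integral_congr_ae (Eventually.of_forall fun t => ?_)
  simp only [ratio, cascSum_smul, mul_div_assoc, Finset.prod_mul_distrib, Finset.prod_const,
    Finset.card_univ, Fintype.card_fin, inv_pow]
  rw [← mul_assoc, mul_inv_cancel₀ (pow_ne_zero _ hC.ne'), one_mul]

/-- Nested replica means are limits of replica averages on finite cascades. -/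
theorem tendsto_rav (hm : Exps m) (hw : WBdd C w) {k : ℕ} (F : (Fin (k + 1) → Cube N) → ℝ) :
    Tendsto (fun n => ∫ t, rav (k + 1) (finH m n w t) F ∂cascLaw ν r n) (cascFilter r)
      (𝓝 (nRep ν m w (k + 1) F)) := by
  refine (tendsto_finsetSum Finset.univ fun σ _ =>
    (tendsto_prod_ratio ν hm hw σ).const_mul (F σ)).congr' ?_
  filter_upwards [eventually_pos r] with n hn
  have hi : ∀ σ : Fin (k + 1) → Cube N,
      Integrable (fun t => ∏ l, gw (finH m n w t) (σ l)) (cascLaw ν r n) := fun σ => by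
    refine Integrable.of_bound ?_ 1 (Eventually.of_forall fun t => ?_)
    · have := fun τ => measurable_gw_finH m n hw (fun _ => 0) τ
      simp only [add_zero] at this
      exact (Finset.measurable_prod _ fun l _ => this (σ l)).aestronglyMeasurable
    · rw [Real.norm_eq_abs, Finset.abs_prod]
      exact Finset.prod_le_one (fun l _ => abs_nonneg _) fun l _ => by
        rw [abs_of_nonneg (gw_nonneg _ _)]; exact gw_le_one _ _
  simp only [rav, mul_comm (∏ _, _) (F _)]
  rw [integral_finsetSum _ fun σ _ => (hi σ).const_mul _]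
  refine Finset.sum_congr rfl fun σ _ => ?_
  rw [integral_const_mul]
  refine congrArg (F σ * ·) (integral_congr_ae ((ae_good ν r n).mono fun t ht => ?_))
  simp only [gw_finH hw hn ht]

/-- The same for tilted weights. -/
theorem tendsto_rav_tilt (hm : Exps m) (hw : WBdd C w) (h : Cube N → ℝ) {k : ℕ}
    (F : (Fin (k + 1) → Cube N) → ℝ) :
    Tendsto (fun n => ∫ t, rav (k + 1) (fun σ => finH m n w t σ + h σ) F ∂cascLaw ν r n)
      (cascFilter r) (𝓝 (nRep ν m (tiltW w h) (k + 1) F)) := by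
  refine (tendsto_rav ν hm (wbdd_tiltW hw h) F).congr' ?_
  filter_upwards [eventually_pos r] with n hn
  refine integral_congr_ae ((ae_good ν r n).mono fun t ht => ?_)
  simp only [finH_tiltW hw hn ht]

lemma abs_logZ_finH_le (h : Cube N → ℝ) (hw : WBdd C w) (n : Fin r → ℕ) (hn : ∀ i, 0 < n i) :
    ∀ᵐ t ∂cascLaw ν r n, |logZ fun σ => finH m n w t σ + h σ| ≤
      |Real.log (max 1 (Fintype.card (Cube N) * (C * Real.exp (∑ σ, |h σ|))))| := by
  filter_upwards [ae_good ν r n] with t ht
  rw [← finH_tiltW hw hn ht h, logZ_finH (wbdd_tiltW hw h) hn ht]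
  exact abs_log_cascMean_le (bdd_sumW (wbdd_tiltW hw h)) m n ht

lemma integrable_logZ_finH (h : Cube N → ℝ) (hw : WBdd C w) (n : Fin r → ℕ) (hn : ∀ i, 0 < n i) :
    Integrable (fun t => logZ fun σ => finH m n w t σ + h σ) (cascLaw ν r n) :=
  Integrable.of_bound (measurable_logZ_finH m n hw h).aestronglyMeasurable _
    (abs_logZ_finH_le ν h hw n hn)

lemma integrable_rav_finH (h : Cube N → ℝ) (hw : WBdd C w) (n : Fin r → ℕ) (k : ℕ)
    (F : (Fin k → Cube N) → ℝ) :
    Integrable (fun t => rav k (fun σ => finH m n w t σ + h σ) F) (cascLaw ν r n) :=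
  Integrable.of_bound (measurable_rav_finH m n hw h k F).aestronglyMeasurable (∑ σ, |F σ|)
    (Eventually.of_forall fun _ => abs_rav_le k _ F fun σ =>
      Finset.single_le_sum (f := fun σ => |F σ|) (fun _ _ => abs_nonneg _) (Finset.mem_univ σ))

/-- The free energy is the limit of the free energies of finite cascades. -/
theorem tendsto_logZ_tilt (hm : Exps m) (hw : WBdd C w) (h : Cube N → ℝ) :
    Tendsto (fun n => ∫ t, logZ (fun σ => finH m n w t σ + h σ) ∂cascLaw ν r n)
      (cascFilter r) (𝓝 (Phi ν m (tiltW w h))) := by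
  have hY := bdd_sumW (wbdd_tiltW hw h)
  refine (cascadeLog β ν r m hm.pos hm.lt_one hm.mono _ _ hY.pos hY.meas hY.mem).congr' ?_
  filter_upwards [eventually_pos r] with n hn
  refine integral_congr_ae ((ae_good ν r n).mono fun t ht => ?_)
  beta_reduce
  rw [← finH_tiltW hw hn ht h, logZ_finH (wbdd_tiltW hw h) hn ht]

/-! ### Consequences -/

omit [IsProbabilityMeasure ν] in
lemma nRep_add (m : Fin r → ℝ) (w : Cube N → (Fin r → β) → ℝ) (n : ℕ)
    (F G : (Fin n → Cube N) → ℝ) :
    nRep ν m w n (fun σ => F σ + G σ) = nRep ν m w n F + nRep ν m w n G := by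
  simp only [nRep, add_mul, Finset.sum_add_distrib]

omit [IsProbabilityMeasure ν] in
lemma nRep_const_mul (m : Fin r → ℝ) (w : Cube N → (Fin r → β) → ℝ) (n : ℕ) (c : ℝ)
    (F : (Fin n → Cube N) → ℝ) : nRep ν m w n (fun σ => c * F σ) = c * nRep ν m w n F := by
  simp only [nRep, Finset.mul_sum, mul_assoc]

omit [IsProbabilityMeasure ν] in
lemma nRep_sum (m : Fin r → ℝ) (w : Cube N → (Fin r → β) → ℝ) (n : ℕ) {α : Type*} (S : Finset α)
    (F : α → (Fin n → Cube N) → ℝ) :
    nRep ν m w n (fun σ => ∑ a ∈ S, F a σ) = ∑ a ∈ S, nRep ν m w n (F a) := by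
  simp only [nRep, Finset.sum_mul]
  exact Finset.sum_comm

lemma nRep_mono (hm : Exps m) (hw : WBdd C w) {k : ℕ} {F G : (Fin (k + 1) → Cube N) → ℝ}
    (h : ∀ σ, F σ ≤ G σ) : nRep ν m w (k + 1) F ≤ nRep ν m w (k + 1) G := by
  have := cascFilter_neBot r
  refine le_of_tendsto_of_tendsto (tendsto_rav ν hm hw F) (tendsto_rav ν hm hw G)
    (Eventually.of_forall fun n => ?_)
  have hi := fun F => integrable_rav_finH (m := m) ν (fun _ => 0) hw n (k + 1) F
  simp only [add_zero] at hi
  exact integral_mono (hi F) (hi G) fun t => Finset.sum_le_sum fun σ _ =>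
    mul_le_mul_of_nonneg_left (h σ) (Finset.prod_nonneg fun l _ => gw_nonneg _ _)

lemma nRep_const (hm : Exps m) (hw : WBdd C w) (k : ℕ) (c : ℝ) :
    nRep ν m w (k + 1) (fun _ => c) = c := by
  have := cascFilter_neBot r
  refine tendsto_nhds_unique (tendsto_rav ν hm hw _) ?_
  simp [Vale.Agent.P168.Limit.rav_const]

lemma abs_nRep_le (hm : Exps m) (hw : WBdd C w) {k : ℕ} {F : (Fin (k + 1) → Cube N) → ℝ} {B : ℝ}
    (h : ∀ σ, |F σ| ≤ B) : |nRep ν m w (k + 1) F| ≤ B := by
  refine abs_le.2 ⟨?_, ?_⟩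
  · rw [← nRep_const ν hm hw k (-B)]
    exact nRep_mono ν hm hw fun σ => (abs_le.1 (h σ)).1
  · conv_rhs => rw [← nRep_const ν hm hw k B]
    exact nRep_mono ν hm hw fun σ => (abs_le.1 (h σ)).2

lemma nRep_first (hm : Exps m) (hw : WBdd C w) (k : ℕ) (v : Cube N → ℝ) :
    nRep ν m w (k + 1) (fun σ => v (σ 0)) = nRep ν m w 1 (fun σ => v (σ 0)) := by
  have := cascFilter_neBot r
  refine tendsto_nhds_unique (tendsto_rav ν hm hw fun σ => v (σ 0))
    ((tendsto_rav ν hm hw (k := 0) fun σ => v (σ 0)).congr fun n => ?_)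
  simp only [Perturb.rav_first]

/-- The free energy lies above its tangent. -/
lemma tangent (hm : Exps m) (hw : WBdd C w) (h v : Cube N → ℝ) (u : ℝ) :
    u * nRep ν m (tiltW w h) 1 (fun σ => v (σ 0)) ≤
      Phi ν m (tiltW w fun σ => h σ + u * v σ) - Phi ν m (tiltW w h) := by
  have := cascFilter_neBot r
  refine le_of_tendsto_of_tendsto ((tendsto_rav_tilt ν hm hw h fun σ => v (σ 0)).const_mul u)
    ((tendsto_logZ_tilt ν hm hw _).sub (tendsto_logZ_tilt ν hm hw h)) ?_
  filter_upwards [eventually_pos r] with n hn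
  rw [← integral_const_mul, ← integral_sub (integrable_logZ_finH ν _ hw n hn)
    (integrable_logZ_finH ν _ hw n hn)]
  refine integral_mono ((integrable_rav_finH ν h hw n _ _).const_mul u)
    ((integrable_logZ_finH ν _ hw n hn).sub (integrable_logZ_finH ν _ hw n hn)) fun t => ?_
  simp only [Perturb.rav_first, ← add_assoc]
  exact Vale.Agent.P168.Limit.SelfAvg.tangent_le _ v u

/-- The free energy is Lipschitz in a change of the Hamiltonian. -/
lemma abs_Phi_sub_le (hm : Exps m) (hw : WBdd C w) (h h' : Cube N → ℝ) {c : ℝ}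
    (hc : ∀ σ, |h' σ - h σ| ≤ c) :
    |Phi ν m (tiltW w h') - Phi ν m (tiltW w h)| ≤ c := by
  have := cascFilter_neBot r
  refine le_of_tendsto ((tendsto_logZ_tilt ν hm hw h').sub (tendsto_logZ_tilt ν hm hw h)).abs ?_
  filter_upwards [eventually_pos r] with n hn
  refine Vale.Agent.P168.Limit.SelfAvg.abs_integral_sub_le (integrable_logZ_finH ν _ hw n hn)
    (integrable_logZ_finH ν _ hw n hn) fun t => ?_
  have := Vale.Agent.P168.Limit.SelfAvg.abs_logZ_sub_le' (fun σ => finH m n w t σ + h σ)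
    (fun σ => h' σ - h σ) hc
  simpa only [add_add_sub_cancel] using this

end Vale.Agent.P166.NW.GG
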