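import Vale.Agent.P166.NW.GG.Finite
import Vale.Agent.P157.Parisi.Perturb.Main

/-!
Integration by parts in the perturbation for weights carried by a cascade.
-/

noncomputable section

open MeasureTheory ProbabilityTheory Filter
open scoped BigOperators Topology

namespace Vale.Agent.P166.NW.GG

open Vale.Agent.P157 Vale.Agent.P157.Parisi Vale.Agent.P157.Parisi.Up
open Vale.Agent.P157.Parisi.Perturb
open Vale.Agent.P168 (CascTree cascLaw cascFilter shapeMarks)
open Vale.Agent.P168.Cascade
open Vale.Agent.P168.Toolkit (gaussPi integrable_eval_gaussPi)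
open Vale.Agent.P168.Limit.SelfAvg (field measurable_field)
open Vale.Agent.P168.Limit (gw rav abs_rav_le)
open Vale.Agent.P168.Upper (cascFilter_neBot tendsto_integral_cascFilter)

variable {β : Type} [MeasurableSpace β] (ν : Measure β) [IsProbabilityMeasure ν] {r N L : ℕ}
  {m : Fin r → ℝ} {C : ℝ}

/-- Nested replica means depend measurably on parameters. -/
lemma measurable_nRep (m : Fin r → ℝ) {P : Type} [MeasurableSpace P]
    {W : P → Cube N → (Fin r → β) → ℝ} (hW : MeasW W) (n : ℕ) (F : (Fin n → Cube N) → ℝ) :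
    Measurable fun d => nRep ν m (W d) n F := by
  refine Finset.measurable_sum _ fun σ _ => Measurable.const_mul ?_ _
  refine Finset.measurable_sum _ fun v _ => Measurable.const_mul ?_ _
  have hmk : ∀ a, Measurable fun z : P × (Fin r → Fin n → β) => (z.1, shapeMarks v z.2 a) := fun a =>
    measurable_fst.prodMk ((measurable_shapeMarks v a).comp measurable_snd)
  have hY : Measurable (Function.uncurry fun d => sumW (W d)) :=
    Finset.measurable_sum _ fun τ _ => hW τ
  have hc : ∀ i a, Measurable fun z : P × (Fin r → Fin n → β) =>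
      cond ν m (sumW (W z.1)) i (shapeMarks v z.2 a) := fun i a =>
    measurable_cond ν m i (Y := fun z : P × (Fin r → Fin n → β) => sumW (W z.1))
      (hY.comp ((measurable_fst.comp measurable_fst).prodMk measurable_snd))
      ((measurable_shapeMarks _ a).comp measurable_snd)
  have hL : Measurable fun z : P × (Fin r → Fin n → β) => logW ν m (sumW (W z.1)) v z.2 :=
    (Finset.measurable_sum _ fun i _ => Finset.measurable_sum _ fun a _ =>
      ((hc _ a).log.sub (hc _ a).log).const_mul _).sub
    (Finset.measurable_sum _ fun a _ => (hY.comp (hmk a)).log)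
  exact ((hL.exp.mul (Finset.measurable_prod _ fun a _ => (hW (σ a)).comp (hmk a))
    ).stronglyMeasurable.integral_prod_right' (ν := tableLaw ν r n)).measurable

/-- Bounded convergence along `cascFilter` with an integrable factor. -/
lemma tendsto_integral_mul {X : Type} [MeasurableSpace X] (μ : Measure X) [IsProbabilityMeasure μ]
    {φ : X → ℝ} (hφm : Measurable φ) (hφ : Integrable φ μ) (F : (Fin r → ℕ) → X → ℝ) (G : X → ℝ)
    {B : ℝ} (hF : ∀ n, Measurable (F n)) (hG : Measurable G) (hbF : ∀ n x, |F n x| ≤ B)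
    (hbG : ∀ x, |G x| ≤ B) (h : ∀ x, Tendsto (fun n => F n x) (cascFilter r) (𝓝 (G x))) :
    Tendsto (fun n => ∫ x, φ x * F n x ∂μ) (cascFilter r) (𝓝 (∫ x, φ x * G x ∂μ)) := by
  obtain ⟨x₀⟩ := nonempty_of_isProbabilityMeasure μ
  have hB : 0 ≤ B := (abs_nonneg _).trans (hbG x₀)
  set ψ : ℕ → X → ℝ := fun M x => clampT (M : ℝ) (φ x) with hψ
  have hψm : ∀ M, Measurable (ψ M) := fun M =>
    measurable_const.max (measurable_const.min hφm)
  have hψb : ∀ (M : ℕ) x, |ψ M x| ≤ M := fun M x => by
    simp only [hψ, clampT, abs_le]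
    exact ⟨le_max_left _ _, max_le (neg_le_self (Nat.cast_nonneg M)) (min_le_left _ _)⟩
  have hψφ : ∀ (M : ℕ) x, |ψ M x - φ x| ≤ |φ x| := fun M x => by
    have hM : (0 : ℝ) ≤ M := Nat.cast_nonneg M
    simp only [hψ, clampT]
    rcases le_total (φ x) 0 with hx | hx
    · rw [min_eq_right (hx.trans hM), abs_of_nonpos hx, abs_of_nonneg (sub_nonneg.2 (le_max_right _ _))]
      have : max (-(M : ℝ)) (φ x) ≤ 0 := max_le (by linarith) hx
      linarith
    · rw [max_eq_right ((neg_nonpos.2 hM).trans (le_min hM hx)), abs_of_nonneg hx,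
        abs_of_nonpos (sub_nonpos.2 (min_le_right _ _))]
      linarith [le_min hM hx]
  have htail : Tendsto (fun M => ∫ x, |ψ M x - φ x| ∂μ) atTop (𝓝 0) := by
    have h0 : ∫ _x : X, (0 : ℝ) ∂μ = 0 := integral_zero _ _
    rw [← h0]
    refine tendsto_integral_of_dominated_convergence (fun x => |φ x|)
      (fun M => ((hψm M).sub hφm).abs.aestronglyMeasurable) hφ.abs
      (fun M => Eventually.of_forall fun x => by
        rw [Real.norm_eq_abs, abs_abs]; exact hψφ M x) (Eventually.of_forall fun x => ?_)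
    refine tendsto_const_nhds.congr' ?_
    filter_upwards [eventually_ge_atTop ⌈|φ x|⌉₊] with M hM
    have hM' : |φ x| ≤ M := (Nat.le_ceil _).trans (by exact_mod_cast hM)
    obtain ⟨a, b⟩ := abs_le.1 hM'
    simp [hψ, clampT, min_eq_right b, max_eq_right a]
  rw [Metric.tendsto_nhds]
  intro η hη
  obtain ⟨M, hM⟩ :=
    (htail.eventually (gt_mem_nhds (show (0 : ℝ) < η / (3 * (B + 1)) by positivity))).exists
  have hlim := tendsto_integral_cascFilter μ (fun n x => ψ M x * F n x) (fun x => ψ M x * G x)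
    ((M : ℝ) * B) (fun n => (hψm M).mul (hF n)) ((hψm M).mul hG)
    (fun n x => (abs_mul _ _).trans_le
      (mul_le_mul (hψb M x) (hbF n x) (abs_nonneg _) (Nat.cast_nonneg _)))
    (fun x => (abs_mul _ _).trans_le
      (mul_le_mul (hψb M x) (hbG x) (abs_nonneg _) (Nat.cast_nonneg _)))
    fun x => (h x).const_mul _
  have hd : ∀ H : X → ℝ, Measurable H → (∀ x, |H x| ≤ B) →
      |∫ x, ψ M x * H x ∂μ - ∫ x, φ x * H x ∂μ| ≤ η / 3 := fun H hH hbH => by
    have i1 : Integrable (fun x => ψ M x * H x) μ :=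
      Integrable.of_bound ((hψm M).mul hH).aestronglyMeasurable ((M : ℝ) * B)
        (Eventually.of_forall fun x => by
          rw [Real.norm_eq_abs, abs_mul]
          exact mul_le_mul (hψb M x) (hbH x) (abs_nonneg _) (Nat.cast_nonneg _))
    have i2 : Integrable (fun x => φ x * H x) μ :=
      hφ.mul_bdd hH.aestronglyMeasurable (Eventually.of_forall fun x => (hbH x))
    rw [← integral_sub i1 i2]
    refine abs_integral_le_integral_abs.trans ?_
    have i3 : Integrable (fun x => |ψ M x - φ x|) μ :=
      (hφ.abs.mono' ((hψm M).sub hφm).abs.aestronglyMeasurable (Eventually.of_forall fun x => by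
        rw [Real.norm_eq_abs, abs_abs]; exact hψφ M x))
    refine (integral_mono_of_nonneg (Eventually.of_forall fun x => abs_nonneg _) (i3.mul_const B)
      (Eventually.of_forall fun x => ?_)).trans ?_
    · beta_reduce
      rw [← sub_mul, abs_mul]
      exact mul_le_mul_of_nonneg_left (hbH x) (abs_nonneg _)
    · rw [integral_mul_const]
      have h1 : η / (3 * (B + 1)) * B ≤ η / 3 := by
        rw [div_mul_eq_mul_div, div_le_div_iff₀ (by positivity) (by norm_num)]
        nlinarith
      exact (mul_le_mul_of_nonneg_right hM.le hB).trans h1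
  filter_upwards [Metric.tendsto_nhds.1 hlim (η / 4) (by positivity)] with n hn
  rw [Real.dist_eq] at hn ⊢
  have h1 := abs_le.1 (hd (F n) (hF n) (hbF n))
  have h2 := abs_le.1 (hd G hG hbG)
  obtain ⟨h3, h4⟩ := abs_lt.1 hn
  exact abs_lt.2 ⟨by linarith, by linarith⟩

variable {w : Cube N → (Fin r → β) → ℝ}

lemma measW_tilt_field {ι : Type} [Fintype ι] (hw : WBdd C w) (φ : Cube N → ι → ℝ) :
    MeasW fun z : ι → ℝ => tiltW w (field φ z) := fun σ =>
  (((hw σ).meas.comp measurable_snd)).mul
    ((measurable_field φ σ).comp measurable_fst).exp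

/-- Integration by parts in one coordinate of a Gaussian field. -/
theorem nRep_ibp {ι : Type} [Fintype ι] [DecidableEq ι] (hm : Exps m) (hw : WBdd C w)
    (φ : Cube N → ι → ℝ) (c : ι) (k : ℕ) (G : (Fin (k + 1) → Cube N) → ℝ) :
    ∫ z, z c * nRep ν m (tiltW w (field φ z)) (k + 1) G ∂gaussPi ι =
      ∫ z, ((∑ q : Fin (k + 1), nRep ν m (tiltW w (field φ z)) (k + 1) fun σ => G σ * φ (σ q) c) -
        ((k + 1 : ℕ) : ℝ) * nRep ν m (tiltW w (field φ z)) (k + 1 + 1)
          (fun σ => G (fun l => σ l.castSucc) * φ (σ (Fin.last (k + 1))) c)) ∂gaussPi ι := by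
  have := cascFilter_neBot r
  set G' : Fin (k + 1) → (Fin (k + 1) → Cube N) → ℝ := fun q σ => G σ * φ (σ q) c with hG'
  set G'' : (Fin (k + 1 + 1) → Cube N) → ℝ :=
    fun σ => G (fun l => σ l.castSucc) * φ (σ (Fin.last (k + 1))) c with hG''
  have hzc : Integrable (fun z : ι → ℝ => z c) (gaussPi ι) := integrable_eval_gaussPi c
  have hmr : ∀ (n : Fin r → ℕ) (j : ℕ) (F : (Fin j → Cube N) → ℝ), Measurable
      fun z : (ι → ℝ) × CascTree β r n => rav j (fun σ => finH m n w z.2 σ + field φ z.1 σ) F :=
    fun n j F => Finset.measurable_sum _ fun _ _ => (Finset.measurable_prod _ fun _ _ =>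
      (((measurable_finH m n hw _).comp measurable_snd).add
        ((measurable_field φ _).comp measurable_fst)).exp.div
      (Finset.measurable_sum _ fun τ _ => (((measurable_finH m n hw τ).comp measurable_snd).add
        ((measurable_field φ τ).comp measurable_fst)).exp)).mul_const _
  have hir : ∀ (n : Fin r → ℕ) (j : ℕ) (F : (Fin j → Cube N) → ℝ), Integrable
      (fun z : (ι → ℝ) × CascTree β r n => rav j (fun σ => finH m n w z.2 σ + field φ z.1 σ) F)
      ((gaussPi ι).prod (cascLaw ν r n)) := fun n j F =>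
    Integrable.of_bound (hmr n j F).aestronglyMeasurable (∑ σ, |F σ|)
      (Eventually.of_forall fun z => abs_rav_le j _ F (abs_le_absSum F))
  -- the finite cascades
  set R : (n : Fin r → ℕ) → (ι → ℝ) → CascTree β r n → ℝ := fun n z t =>
    (∑ q : Fin (k + 1), rav (k + 1) (fun σ => finH m n w t σ + field φ z σ) (G' q)) -
      ((k + 1 : ℕ) : ℝ) * rav (k + 1 + 1) (fun σ => finH m n w t σ + field φ z σ) G'' with hR
  have hfin : ∀ n : Fin r → ℕ, ∫ z, z c * ∫ t, rav (k + 1)
      (fun σ => finH m n w t σ + field φ z σ) G ∂cascLaw ν r n ∂gaussPi ι =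
        ∫ z, ∫ t, R n z t ∂cascLaw ν r n ∂gaussPi ι := by
    intro n
    simp only [← integral_const_mul]
    have hL : Integrable (Function.uncurry fun (z : ι → ℝ) (t : CascTree β r n) =>
        z c * rav (k + 1) (fun σ => finH m n w t σ + field φ z σ) G)
        ((gaussPi ι).prod (cascLaw ν r n)) := by
      refine ((hzc.comp_fst (cascLaw ν r n)).abs.mul_const (∑ σ, |G σ|)).mono'
        (((measurable_pi_apply c).comp measurable_fst).mul (hmr n _ G)).aestronglyMeasurable
        (Eventually.of_forall fun z => ?_)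
      rw [Real.norm_eq_abs, Function.uncurry, abs_mul]
      exact mul_le_mul_of_nonneg_left (abs_rav_le _ _ G (abs_le_absSum G)) (abs_nonneg _)
    have hR' : Integrable (Function.uncurry fun (z : ι → ℝ) (t : CascTree β r n) => R n z t)
        ((gaussPi ι).prod (cascLaw ν r n)) :=
      (integrable_finsetSum _ fun q _ => hir n _ _).sub ((hir n _ _).const_mul _)
    rw [integral_integral_swap hL, integral_integral_swap hR']
    exact integral_congr_ae (Eventually.of_forall fun t => gauss_rav_ibp (finH m n w t) φ c (k + 1) G)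
  set B := (∑ q : Fin (k + 1), ∑ σ, |G' q σ|) + ((k + 1 : ℕ) : ℝ) * ∑ σ, |G'' σ| with hB
  have hRb : ∀ n z t, |R n z t| ≤ B := fun n z t => by
    refine (abs_sub _ _).trans (add_le_add ((Finset.abs_sum_le_sum_abs _ _).trans
      (Finset.sum_le_sum fun q _ => abs_rav_le _ _ _ (abs_le_absSum _))) ?_)
    rw [abs_mul, Nat.abs_cast]
    exact mul_le_mul_of_nonneg_left (abs_rav_le _ _ _ (abs_le_absSum _)) (Nat.cast_nonneg _)
  have hnm : ∀ (j : ℕ) (F : (Fin j → Cube N) → ℝ),
      Measurable fun z : ι → ℝ => nRep ν m (tiltW w (field φ z)) j F := fun j F =>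
    measurable_nRep ν m (measW_tilt_field hw φ) j F
  have h1 := tendsto_integral_mul (gaussPi ι) (measurable_pi_apply c) hzc
    (fun n z => ∫ t, rav (k + 1) (fun σ => finH m n w t σ + field φ z σ) G ∂cascLaw ν r n)
    (fun z => nRep ν m (tiltW w (field φ z)) (k + 1) G) (B := ∑ σ, |G σ|)
    (fun n => (hmr n _ G).stronglyMeasurable.integral_prod_right'.measurable) (hnm _ G)
    (fun n z => by
      have := norm_integral_le_of_norm_le_const (μ := cascLaw ν r n) (C := ∑ σ, |G σ|)
        (f := fun t => rav (k + 1) (fun σ => finH m n w t σ + field φ z σ) G)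
        (Eventually.of_forall fun t => abs_rav_le _ _ G (abs_le_absSum G))
      simpa using this)
    (fun z => abs_nRep_le ν hm (wbdd_tiltW hw _) (abs_le_absSum G))
    fun z => tendsto_rav_tilt ν hm hw _ G
  have h2 := tendsto_integral_cascFilter (gaussPi ι) (fun n z => ∫ t, R n z t ∂cascLaw ν r n)
    (fun z => (∑ q : Fin (k + 1), nRep ν m (tiltW w (field φ z)) (k + 1) (G' q)) -
      ((k + 1 : ℕ) : ℝ) * nRep ν m (tiltW w (field φ z)) (k + 1 + 1) G'') B
    (fun n => ((Finset.measurable_sum _ fun q _ => hmr n _ _).sub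
      ((hmr n _ _).const_mul _)).stronglyMeasurable.integral_prod_right'.measurable)
    ((Finset.measurable_sum _ fun q _ => hnm _ _).sub ((hnm _ _).const_mul _))
    (fun n z => by
      have := norm_integral_le_of_norm_le_const (μ := cascLaw ν r n) (f := R n z) (C := B)
        (Eventually.of_forall fun t => hRb n z t)
      simpa using this)
    (fun z => by
      refine (abs_sub _ _).trans (add_le_add ((Finset.abs_sum_le_sum_abs _ _).trans
        (Finset.sum_le_sum fun q _ => abs_nRep_le ν hm (wbdd_tiltW hw _) (abs_le_absSum _))) ?_)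
      rw [abs_mul, Nat.abs_cast]
      exact mul_le_mul_of_nonneg_left (abs_nRep_le ν hm (wbdd_tiltW hw _) (abs_le_absSum _))
        (Nat.cast_nonneg _))
    fun z => by
      have hl := (tendsto_finsetSum Finset.univ fun q _ =>
        tendsto_rav_tilt ν hm hw (field φ z) (G' q)).sub
          ((tendsto_rav_tilt ν hm hw (field φ z) G'').const_mul ((k + 1 : ℕ) : ℝ))
      refine hl.congr fun n => ?_
      have i1 := fun q => integrable_rav_finH (m := m) ν (field φ z) hw n (k + 1) (G' q)
      have i2 := integrable_rav_finH (m := m) ν (field φ z) hw n (k + 1 + 1) G''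
      simp only [hR]
      rw [integral_sub (integrable_finsetSum _ fun q _ => i1 q) (i2.const_mul _),
        integral_finsetSum _ fun q _ => i1 q, integral_const_mul]
  exact tendsto_nhds_unique h1 (h2.congr fun n => (hfin n).symm)

/-! ### The disorder average -/

variable {D : Type} [MeasurableSpace D] (law : Measure D) [IsProbabilityMeasure law]
  {W : D → Cube N → (Fin r → β) → ℝ} {s : ℝ} {x : Fin L → ℝ}

omit [MeasurableSpace β] [MeasurableSpace D] in
lemma pertW_eq (s : ℝ) (x : Fin L → ℝ) (e : D × (PertIdx N L → ℝ)) :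
    pertW W s x e = tiltW (W e.1) (pertH s x e.2) := rfl

lemma measW_pertW (hW : MeasW W) (s : ℝ) :
    MeasW fun z : (Fin L → ℝ) × (D × (PertIdx N L → ℝ)) => pertW W s z.1 z.2 := fun σ => by
  refine Measurable.mul ((hW σ).comp (((measurable_fst.comp measurable_snd).comp
    measurable_fst).prodMk measurable_snd)) ?_
  exact (((measurable_pertH s σ).comp (measurable_fst.prodMk
    (measurable_snd.comp measurable_snd))).comp measurable_fst).exp

lemma measW_pertW_fixed (hW : MeasW W) (s : ℝ) (x : Fin L → ℝ) :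
    MeasW fun e : D × (PertIdx N L → ℝ) => pertW W s x e := fun σ =>
  (measW_pertW hW s σ).comp ((measurable_const.prodMk measurable_fst).prodMk measurable_snd)

/-- The expectation of a nested replica mean. -/
def eRep (m : Fin r → ℝ) (W : D → Cube N → (Fin r → β) → ℝ) (s : ℝ) (x : Fin L → ℝ) (k : ℕ)
    (F : (Fin k → Cube N) → ℝ) : ℝ :=
  ∫ e, nRep ν m (pertW W s x e) k F ∂famLaw law N L

instance : IsProbabilityMeasure (famLaw law N L) := by unfold famLaw; infer_instance

variable (hm : Exps m) (hW : MeasW W) (hb : ∀ d, WBdd C (W d))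
include hm hW hb

lemma integrable_nRep (k : ℕ) (F : (Fin (k + 1) → Cube N) → ℝ) :
    Integrable (fun e => nRep ν m (pertW W s x e) (k + 1) F) (famLaw law N L) :=
  Integrable.of_bound (measurable_nRep ν m (measW_pertW_fixed hW s x) _ F).aestronglyMeasurable
    (∑ σ, |F σ|) (Eventually.of_forall fun e => by
      rw [pertW_eq]; exact abs_nRep_le ν hm (wbdd_tiltW (hb _) _) (abs_le_absSum F))

omit hW in
lemma abs_eRep_le (k : ℕ) {F : (Fin (k + 1) → Cube N) → ℝ} {B : ℝ} (h : ∀ σ, |F σ| ≤ B) :
    |eRep ν law m W s x (k + 1) F| ≤ B := by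
  rw [← Real.norm_eq_abs]
  exact (norm_integral_le_of_norm_le_const (C := B) (Eventually.of_forall fun e => by
    rw [Real.norm_eq_abs, pertW_eq]; exact abs_nRep_le ν hm (wbdd_tiltW (hb _) _) h)).trans
      (le_of_eq (by simp))

lemma eRep_sum (k : ℕ) {α : Type*} (S : Finset α) (F : α → (Fin (k + 1) → Cube N) → ℝ) :
    eRep ν law m W s x (k + 1) (fun σ => ∑ a ∈ S, F a σ) =
      ∑ a ∈ S, eRep ν law m W s x (k + 1) (F a) := by
  simp only [eRep, nRep_sum]
  exact integral_finsetSum _ fun a _ => integrable_nRep ν law hm hW hb k (F a)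

omit hm hW hb [IsProbabilityMeasure ν] [IsProbabilityMeasure law] in
lemma eRep_const_mul (k : ℕ) (c : ℝ) (F : (Fin k → Cube N) → ℝ) :
    eRep ν law m W s x k (fun σ => c * F σ) = c * eRep ν law m W s x k F := by
  simp only [eRep, nRep_const_mul, integral_const_mul]

lemma integrable_coord_nRep (c : PertIdx N L) (k : ℕ) (F : (Fin (k + 1) → Cube N) → ℝ) :
    Integrable (fun e => e.2 c * nRep ν m (pertW W s x e) (k + 1) F) (famLaw law N L) := by
  have hc : Integrable (fun e : D × (PertIdx N L → ℝ) => e.2 c) (famLaw law N L) :=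
    (integrable_eval_gaussPi c).comp_snd law
  exact (hc.abs.mul_const (∑ σ, |F σ|)).mono'
    (((measurable_pi_apply c).comp measurable_snd).mul
      (measurable_nRep ν m (measW_pertW_fixed hW s x) _ F)).aestronglyMeasurable
    (Eventually.of_forall fun e => by
      rw [Real.norm_eq_abs, abs_mul, pertW_eq]
      exact mul_le_mul_of_nonneg_left (abs_nRep_le ν hm (wbdd_tiltW (hb _) _) (abs_le_absSum F))
        (abs_nonneg _))

/-- Integration by parts in one coordinate of the perturbation. -/
theorem eRep_ibp (c : PertIdx N L) (k : ℕ) (G : (Fin (k + 1) → Cube N) → ℝ) :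
    ∫ e, e.2 c * nRep ν m (pertW W s x e) (k + 1) G ∂famLaw law N L =
      s * x c.1 * ((∑ q : Fin (k + 1), eRep ν law m W s x (k + 1) fun σ => G σ * feat c (σ q)) -
        ((k + 1 : ℕ) : ℝ) * eRep ν law m W s x (k + 1 + 1)
          fun σ => G (fun l => σ l.castSucc) * feat c (σ (Fin.last (k + 1)))) := by
  classical
  have i1 := fun q : Fin (k + 1) => integrable_nRep (s := s) (x := x) ν law hm hW hb k
    fun σ => G σ * feat c (σ q)
  have i2 := integrable_nRep (s := s) (x := x) ν law hm hW hb (k + 1)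
    fun σ => G (fun l => σ l.castSucc) * feat c (σ (Fin.last (k + 1)))
  have i3 : Integrable (fun e => s * x c.1 * ((∑ q : Fin (k + 1),
      nRep ν m (pertW W s x e) (k + 1) fun σ => G σ * feat c (σ q)) - ((k + 1 : ℕ) : ℝ) *
      nRep ν m (pertW W s x e) (k + 1 + 1)
        fun σ => G (fun l => σ l.castSucc) * feat c (σ (Fin.last (k + 1)))))
      (famLaw law N L) :=
    ((integrable_finsetSum _ fun q _ => i1 q).sub (i2.const_mul _)).const_mul _
  simp only [eRep]
  rw [← integral_finsetSum _ fun q _ => i1 q, ← integral_const_mul ((k + 1 : ℕ) : ℝ),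
    ← integral_sub (integrable_finsetSum _ fun q _ => i1 q) (i2.const_mul _),
    ← integral_const_mul (s * x c.1)]
  have iL := integrable_coord_nRep (s := s) (x := x) ν law hm hW hb c k G
  unfold famLaw at iL i3 ⊢
  rw [integral_prod _ iL, integral_prod _ i3]
  refine integral_congr_ae (Eventually.of_forall fun d => ?_)
  beta_reduce
  have e : ∀ J, pertW W s x (d, J) =
      tiltW (W d) (field (fun τ c => s * x c.1 * feat c τ) J) := fun J =>
    congrArg (tiltW (W d)) (funext fun σ => pertH_eq_field s x J σ)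
  simp only [e]
  rw [nRep_ibp ν hm (hb d)]
  refine integral_congr_ae (Eventually.of_forall fun J => ?_)
  simp only [mul_left_comm _ (s * x c.1), nRep_const_mul, ← Finset.mul_sum]
  ring

/-- The mean of a bounded function of replicas times the observable of replica `0`. -/
theorem eRep_obs [NeZero N] (P : Fin L) (n : ℕ) (F : (Fin (n + 1) → Cube N) → ℝ) :
    ∫ e, nRep ν m (pertW W s x e) (n + 1) (fun σ => F σ * gObs P e.2 (σ 0)) ∂famLaw law N L =
      s * x P * (1 / 4) ^ (P.val + 1) *
        ((eRep ν law m W s x (n + 1) F + ∑ l : Fin n,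
            eRep ν law m W s x (n + 1) fun σ => F σ * overlap (σ 0) (σ l.succ) ^ (P.val + 1)) -
          ((n : ℝ) + 1) * eRep ν law m W s x (n + 2) fun σ =>
            F (fun l => σ l.castSucc) * overlap (σ 0) (σ (Fin.last (n + 1))) ^ (P.val + 1)) := by
  have e : ∀ e : D × (PertIdx N L → ℝ),
      nRep ν m (pertW W s x e) (n + 1) (fun σ => F σ * gObs P e.2 (σ 0)) =
      ∑ v : Fin (P.val + 1) → Fin N,
        e.2 ⟨P, v⟩ * nRep ν m (pertW W s x e) (n + 1) (fun σ => F σ * feat ⟨P, v⟩ (σ 0)) := by
    intro e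
    simp only [← nRep_const_mul, ← nRep_sum]
    refine congrArg _ (funext fun σ => ?_)
    simp only [gObs, Finset.mul_sum]
    exact Finset.sum_congr rfl fun v _ => by ring
  simp only [e]
  rw [integral_finsetSum _ fun v _ => integrable_coord_nRep ν law hm hW hb _ _ _]
  simp only [eRep_ibp ν law hm hW hb]
  have hS : ∀ (k : ℕ) (G : (Fin (k + 1) → Cube N) → ℝ) (a b : (Fin (k + 1) → Cube N) → Cube N),
      ∑ v : Fin (P.val + 1) → Fin N,
          eRep ν law m W s x (k + 1) (fun σ => G σ * feat ⟨P, v⟩ (a σ) * feat ⟨P, v⟩ (b σ)) =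
        (1 / 4) ^ (P.val + 1) *
          eRep ν law m W s x (k + 1) (fun σ => G σ * overlap (a σ) (b σ) ^ (P.val + 1)) := by
    intro k G a b
    rw [← eRep_sum ν law hm hW hb, ← eRep_const_mul ν law]
    refine congrArg _ (funext fun σ => ?_)
    simp only [mul_assoc (G σ), ← Finset.mul_sum, sum_feat_mul]
    ring
  rw [← Finset.mul_sum, Finset.sum_sub_distrib, ← Finset.mul_sum, Finset.sum_comm,
    Fin.sum_univ_succ, hS n F (fun σ => σ 0) fun σ => σ 0,
    Finset.sum_congr rfl fun l _ => hS n F (fun σ => σ 0) fun σ => σ (Fin.succ l),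
    hS (n + 1) (fun σ => F fun l => σ l.castSucc) (fun σ => σ (Fin.castSucc 0))
      fun σ => σ (Fin.last (n + 1)), ← Finset.mul_sum]
  simp only [Perturb.overlap_self, one_pow, mul_one, Fin.castSucc_zero, Nat.cast_add, Nat.cast_one]
  ring

end Vale.Agent.P166.NW.GG
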