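import Vale.Agent.P166.NW.GG.Thermal
import Vale.Agent.P166.NW.GG.Ibp

/-!
Self-averaging of a derivative from convexity, and the variance of the perturbed free energy.
-/

noncomputable section

open MeasureTheory ProbabilityTheory Filter
open scoped BigOperators Topology

namespace Vale.Agent.P166.NW.GG

open Vale.Agent.P157 Vale.Agent.P157.Parisi Vale.Agent.P157.Parisi.Up
open Vale.Agent.P157.Parisi.Perturb
open Vale.Agent.P168.Cascade
open Vale.Agent.P168.Toolkit (gauss gaussPi efronStein integrable_gauss_sq integral_gauss_sq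
  integrable_gauss_id integral_gauss_id memLp_two_of_lipschitz)
open Vale.Agent.P168.Limit.SelfAvg (field measurable_field variance_prod_le abs_field_le)

/-- Averaged over the parameter, an observable is close to its mean: an abstract form. -/
theorem self_average {D : Type*} [MeasurableSpace D] {ν : Measure D} [IsProbabilityMeasure ν]
    {f p w q : ℝ → D → ℝ} {bd bd2 : D → ℝ} (hbd : Integrable bd ν) (hbd2 : Integrable bd2 ν)
    (hpm : Measurable (Function.uncurry p)) (hwm : Measurable (Function.uncurry w))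
    (hp : ∀ t d, |p t d| ≤ bd d) (hw0 : ∀ t d, 0 ≤ w t d) (hwb : ∀ t d, w t d ≤ bd2 d)
    (hf : ∀ t, Integrable (f t) ν) (htan : ∀ t u d, (u - t) * p t d ≤ f u d - f t d)
    (hth' : ∀ d, ∫ t in Set.Icc (1 : ℝ) 2, w t d = p 2 d - p 1 d)
    {κ V B a y : ℝ} (hκ : 0 ≤ κ) (ha : 0 < a) (hy : 0 < y) (hy1 : y ≤ 1)
    (hq0 : ∀ t d, 0 ≤ q t d)
    (hq : ∀ t d, q t d ≤ κ * w t d / (2 * a) + a / 2 + |p t d - ∫ d', p t d' ∂ν|)
    (hV : ∀ t ∈ Set.Icc (0 : ℝ) 3, ∫ d, |f t d - ∫ d', f t d' ∂ν| ∂ν ≤ V)
    (hB : ∀ t ∈ Set.Icc (0 : ℝ) 3, |∫ d, p t d ∂ν| ≤ B) :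
    ∫ t in Set.Icc (1 : ℝ) 2, ∫ d, q t d ∂ν ≤ κ * B / a + a / 2 + 3 * V / y + 4 * y * B := by
  set g1 : ℝ → ℝ := fun t => ∫ d, p t d ∂ν with hg1
  set g : ℝ → ℝ := fun t => ∫ d, f t d ∂ν with hgd
  have hpi : ∀ t, Integrable (p t) ν := fun t =>
    hbd.mono' (hpm.comp measurable_prodMk_left).aestronglyMeasurable (ae_of_all _ fun d => hp t d)
  have hwi : ∀ t, Integrable (w t) ν := fun t =>
    hbd2.mono' (hwm.comp measurable_prodMk_left).aestronglyMeasurable
      (ae_of_all _ fun d => by rw [Real.norm_eq_abs, abs_of_nonneg (hw0 t d)]; exact hwb t d)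
  set I : Measure ℝ := volume.restrict (Set.Icc (1 : ℝ) 2) with hI
  have : IsProbabilityMeasure I := ⟨by simp [hI]; norm_num⟩
  have hwprod : Integrable (Function.uncurry w) (I.prod ν) :=
    (hbd2.comp_snd I).mono' hwm.aestronglyMeasurable
      (ae_of_all _ fun z => by rw [Real.norm_eq_abs, Function.uncurry, abs_of_nonneg (hw0 _ _)]; exact hwb _ _)
  have hth : ∫ t, ∫ d, w t d ∂ν ∂I ≤ 2 * B := by
    rw [integral_integral_swap hwprod]
    have e : ∀ d, ∫ t, w t d ∂I = p 2 d - p 1 d := hth'
    simp_rw [e]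
    rw [integral_sub (hpi 2) (hpi 1)]
    have h2 := (abs_le.1 (hB 2 (by norm_num))).2
    have h1 := (abs_le.1 (hB 1 (by norm_num))).1
    linarith
  have hmono : Monotone g1 := by
    intro t u htu
    refine integral_mono (hpi t) (hpi u) fun d => ?_
    rcases htu.eq_or_lt with rfl | hlt
    · exact le_rfl
    · have h1 := htan t u d
      have h2 := htan u t d
      nlinarith
  have htang : ∀ t u, (u - t) * g1 t ≤ g u - g t := fun t u => by
    simp only [hg1, hgd]
    rw [← integral_const_mul, ← integral_sub (hf u) (hf t)]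
    exact integral_mono ((hpi t).const_mul _) ((hf u).sub (hf t)) fun d => htan t u d
  set Dv : ℝ → D → ℝ := fun t d => |f t d - g t| with hDv
  have hmean : ∀ t d, |p t d - g1 t| ≤
      (Dv (t + y) d + Dv t d + Dv (t - y) d) / y + (g1 (t + y) - g1 (t - y)) := by
    intro t d
    have u1 := htan t (t + y) d
    have u2 := htan t (t - y) d
    have v1 := htang (t + y) t
    have v2 := htang (t - y) t
    have m1 : g1 (t - y) ≤ g1 t := hmono (by linarith)
    have m2 : g1 t ≤ g1 (t + y) := hmono (by linarith)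
    have b1 := abs_le.1 (le_refl (Dv (t + y) d))
    have b2 := abs_le.1 (le_refl (Dv t d))
    have b3 := abs_le.1 (le_refl (Dv (t - y) d))
    have n1 : 0 ≤ Dv (t + y) d := abs_nonneg _
    have n3 : 0 ≤ Dv (t - y) d := abs_nonneg _
    rw [abs_le]
    constructor
    · rw [neg_le_iff_add_nonneg', ← mul_nonneg_iff_of_pos_left hy]
      field_simp
      nlinarith
    · rw [← sub_nonneg, ← mul_nonneg_iff_of_pos_left hy]
      field_simp
      nlinarith
  have hfi : ∀ t, Integrable (Dv t) ν := fun t => ((hf t).sub (integrable_const _)).abs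
  have hstep : ∀ t ∈ Set.Icc (1 : ℝ) 2, ∫ d, q t d ∂ν ≤
      κ * (∫ d, w t d ∂ν) / (2 * a) + a / 2 + 3 * V / y + (g1 (t + y) - g1 (t - y)) := by
    intro t ht
    obtain ⟨ht1, ht2⟩ := ht
    have i1 : Integrable (fun d => κ * w t d / (2 * a) + a / 2) ν :=
      (((hwi t).const_mul κ).div_const _).add (integrable_const _)
    have i2 : Integrable (fun d => (Dv (t + y) d + Dv t d + Dv (t - y) d) / y) ν :=
      (((hfi _).add (hfi _)).add (hfi _)).div_const y
    refine (integral_mono_of_nonneg (ae_of_all _ fun d => hq0 t d)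
      ((i1.add i2).add (integrable_const (g1 (t + y) - g1 (t - y))))
      (ae_of_all _ fun d => (hq t d).trans (by
        have := hmean t d
        simp only [Pi.add_apply]
        linarith))).trans ?_
    simp only [Pi.add_apply]
    have i12 : Integrable (fun d => κ * w t d / (2 * a) + a / 2 +
        (Dv (t + y) d + Dv t d + Dv (t - y) d) / y) ν := i1.add i2
    have i3 : Integrable (fun d => Dv (t + y) d + Dv t d) ν := (hfi _).add (hfi _)
    rw [integral_add i12 (integrable_const _), integral_add i1 i2,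
      integral_add (((hwi t).const_mul κ).div_const _) (integrable_const _), integral_div (2 * a),
      integral_const_mul, integral_div y, integral_add i3 (hfi _), integral_add (hfi _) (hfi _)]
    simp only [integral_const, probReal_univ, one_smul]
    have e1 := hV (t + y) ⟨by linarith, by linarith⟩
    have e2 := hV t ⟨by linarith, by linarith⟩
    have e3 := hV (t - y) ⟨by linarith, by linarith⟩
    have : (∫ d, Dv (t + y) d ∂ν + ∫ d, Dv t d ∂ν + ∫ d, Dv (t - y) d ∂ν) / y ≤ 3 * V / y :=
      div_le_div_of_nonneg_right (by simp only [hDv, hgd]; linarith) hy.le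
    linarith
  have iw : Integrable (fun t => ∫ d, w t d ∂ν) I := hwprod.integral_prod_left
  have ii : ∀ u v : ℝ, IntervalIntegrable g1 volume u v := fun u v => hmono.intervalIntegrable
  have ig : ∀ c, Integrable (fun t => g1 (t + c)) I := fun c =>
    ((hmono.comp (monotone_id.add_const c)).monotoneOn _).integrableOn_isCompact isCompact_Icc
  have ig' : Integrable (fun t => g1 (t + y) - g1 (t - y)) I := (ig y).sub (ig (-y))
  have hshift : ∫ t, (g1 (t + y) - g1 (t - y)) ∂I ≤ 4 * y * B := by
    rw [hI, integral_Icc_eq_integral_Ioc, ← intervalIntegral.integral_of_le one_le_two,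
      intervalIntegral.integral_sub, intervalIntegral.integral_comp_add_right,
      intervalIntegral.integral_comp_sub_right]
    · rw [← intervalIntegral.integral_add_adjacent_intervals (ii (1 + y) (2 - y)) (ii (2 - y) (2 + y)),
        ← intervalIntegral.integral_add_adjacent_intervals (ii (1 - y) (1 + y)) (ii (1 + y) (2 - y))]
      have hb : ∀ u v : ℝ, 0 ≤ u → v ≤ 3 → u ≤ v → |∫ t in u..v, g1 t| ≤ B * (v - u) := by
        intro u v hu hv huv
        have := intervalIntegral.norm_integral_le_of_norm_le_const (C := B) (a := u) (b := v) (f := g1)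
          fun t ht => by
            rw [Set.uIoc_of_le huv] at ht
            exact hB t ⟨by linarith [ht.1], by linarith [ht.2]⟩
        rwa [abs_of_nonneg (sub_nonneg.2 huv)] at this
      have h1 := (abs_le.1 (hb (2 - y) (2 + y) (by linarith) (by linarith) (by linarith))).2
      have h2 := (abs_le.1 (hb (1 - y) (1 + y) (by linarith) (by linarith) (by linarith))).1
      nlinarith
    · exact (hmono.comp (monotone_id.add_const y)).intervalIntegrable
    · exact (hmono.comp (monotone_id.add_const (-y))).intervalIntegrable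
  have ijoint : Integrable (fun t => κ * (∫ d, w t d ∂ν) / (2 * a) + a / 2 + 3 * V / y) I :=
    (((iw.const_mul κ).div_const _).add (integrable_const _)).add (integrable_const _)
  refine (integral_mono_of_nonneg (ae_of_all _ fun t => integral_nonneg fun d => hq0 t d)
    (ijoint.add ig') ?_).trans ?_
  · rw [hI]
    exact (ae_restrict_iff' measurableSet_Icc).2 (ae_of_all _ fun t ht => hstep t ht)
  simp only [Pi.add_apply]
  have i4 : Integrable (fun t => κ * (∫ d, w t d ∂ν) / (2 * a) + a / 2) I :=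
    ((iw.const_mul κ).div_const _).add (integrable_const _)
  rw [integral_add ijoint ig', integral_add i4 (integrable_const _),
    integral_add ((iw.const_mul κ).div_const _) (integrable_const _), integral_div (2 * a),
    integral_const_mul]
  simp only [integral_const, probReal_univ, one_smul]
  have : κ * (∫ t, ∫ d, w t d ∂ν ∂I) / (2 * a) ≤ κ * B / a := by
    calc κ * (∫ t, ∫ d, w t d ∂ν ∂I) / (2 * a) ≤ κ * (2 * B) / (2 * a) :=
          div_le_div_of_nonneg_right (mul_le_mul_of_nonneg_left hth hκ) (by positivity)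
      _ = κ * B / a := by field_simp
  linarith

variable {β : Type} [MeasurableSpace β] (ν : Measure β) [IsProbabilityMeasure ν] {r N L : ℕ}
  {m : Fin r → ℝ} {C : ℝ} {D : Type} [MeasurableSpace D] (law : Measure D) [IsProbabilityMeasure law]
  {W : D → Cube N → (Fin r → β) → ℝ}

/-- The free energy of a Gaussian field has variance at most the sum of the squared coefficients. -/
theorem phi_field_variance {ι : Type} [Fintype ι] (hm : Exps m)
    {w : Cube N → (Fin r → β) → ℝ} (hw : WBdd C w) (φ : Cube N → ι → ℝ) {K : ι → ℝ}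
    (hK : ∀ σ i, |φ σ i| ≤ K i) :
    MemLp (fun z => Phi ν m (tiltW w (field φ z))) 2 (gaussPi ι) ∧
      variance (fun z => Phi ν m (tiltW w (field φ z))) (gaussPi ι) ≤ ∑ i, K i ^ 2 := by
  classical
  have hmem : MemLp (fun z => Phi ν m (tiltW w (field φ z))) 2 (gaussPi ι) :=
    memLp_two_of_lipschitz (measurable_Phi ν m (measW_tilt_field hw φ))
      (A := |Phi ν m (tiltW w fun _ => 0)|) (L := fun i => ∑ σ, |φ σ i|) fun z => by
      have := abs_Phi_sub_le ν hm hw (fun _ => 0) (field φ z) (c := ∑ i, (∑ σ, |φ σ i|) * |z i|)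
        fun σ => by rw [sub_zero]; exact abs_field_le φ z σ
      linarith [abs_sub_abs_le_abs_sub (Phi ν m (tiltW w (field φ z))) (Phi ν m (tiltW w fun _ => 0))]
  refine ⟨hmem, ?_⟩
  have hd : ∀ i : ι, Integrable (fun p : ℝ × ℝ => (K i * |p.1 - p.2|) ^ 2) (gauss.prod gauss) := by
    intro i
    refine ((((integrable_gauss_sq.comp_fst gauss).add (integrable_gauss_sq.comp_snd gauss)).const_mul
      (2 * K i ^ 2)).mono' (by fun_prop) (ae_of_all _ fun p => ?_))
    simp only [Pi.add_apply, mul_pow, sq_abs, Real.norm_eq_abs]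
    rw [abs_of_nonneg (by positivity)]
    nlinarith [sq_nonneg (K i), sq_nonneg (p.1 + p.2)]
  refine (efronStein (fun _ : ι => gauss) (measurable_Phi ν m (measW_tilt_field hw φ)) hmem
    (d := fun i a b => K i * |a - b|) hd fun z i a => ?_).trans ?_
  · have hf : ∀ σ, field φ (Function.update z i a) σ - field φ z σ = φ σ i * (a - z i) := by
      intro σ
      simp only [field]
      rw [← Finset.sum_sub_distrib, Fintype.sum_eq_single i fun j hj => by
        rw [Function.update_of_ne hj, sub_self], Function.update_self]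
      ring
    rw [abs_sub_comm]
    refine abs_Phi_sub_le ν hm hw _ _ fun σ => ?_
    rw [hf, abs_mul, abs_sub_comm a]
    exact mul_le_mul_of_nonneg_right (hK σ i) (abs_nonneg _)
  · refine Finset.sum_le_sum fun i _ => ?_
    simp only [mul_pow, sq_abs, integral_const_mul]
    have e : ∀ a : ℝ, ∫ b, (a - b) ^ 2 ∂gauss = a ^ 2 + 1 := by
      intro a
      have h1 : ∀ b, (a - b) ^ 2 = a ^ 2 + ((-2 * a) * b + b ^ 2) := fun b => by ring
      have i1 : Integrable (fun b => (-2 * a) * b + b ^ 2) gauss :=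
        (integrable_gauss_id.const_mul _).add integrable_gauss_sq
      simp_rw [h1]
      rw [integral_add (integrable_const _) i1,
        integral_add (integrable_gauss_id.const_mul _) integrable_gauss_sq, integral_const_mul,
        integral_gauss_id, integral_gauss_sq]
      simp
    simp_rw [e]
    rw [integral_add integrable_gauss_sq (integrable_const _), integral_gauss_sq]
    simp
    linarith

/-- The coefficients of the perturbation. -/
lemma sum_sq_coef_le [NeZero N] (s : ℝ) :
    ∑ c : PertIdx N L, (|s| * 3 * ((1 / 2 : ℝ) ^ (c.1.val + 1) *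
      ((Real.sqrt N)⁻¹) ^ (c.1.val + 1))) ^ 2 ≤ 3 * s ^ 2 := by
  rw [Fintype.sum_sigma]
  have e : ∀ P : Fin L, ∑ _v : Fin (P.val + 1) → Fin N, (|s| * 3 * ((1 / 2 : ℝ) ^ (P.val + 1) *
      ((Real.sqrt N)⁻¹) ^ (P.val + 1))) ^ 2 = 9 * s ^ 2 * (1 / 4) ^ (P.val + 1) := by
    intro P
    have hN : (N : ℝ) * (Real.sqrt N)⁻¹ ^ 2 = 1 := by
      rw [inv_pow, Real.sq_sqrt (Nat.cast_nonneg _), mul_inv_cancel₀]
      exact_mod_cast NeZero.ne N
    simp only [Finset.sum_const, Finset.card_univ, Fintype.card_fun, Fintype.card_fin, nsmul_eq_mul,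
      Nat.cast_pow]
    rw [mul_pow, mul_pow, mul_pow, sq_abs, ← pow_mul, ← pow_mul, mul_comm (P.val + 1) 2, pow_mul,
      pow_mul]
    have : (N : ℝ) ^ (P.val + 1) * ((Real.sqrt N)⁻¹ ^ 2) ^ (P.val + 1) = 1 := by
      rw [← mul_pow, hN, one_pow]
    calc _ = 9 * s ^ 2 * ((1 / 2 : ℝ) ^ 2) ^ (P.val + 1) *
          ((N : ℝ) ^ (P.val + 1) * ((Real.sqrt N)⁻¹ ^ 2) ^ (P.val + 1)) := by ring
      _ = _ := by rw [this]; norm_num
  simp only [e, ← Finset.mul_sum]
  calc 9 * s ^ 2 * ∑ P : Fin L, (1 / 4 : ℝ) ^ (P.val + 1) ≤ 9 * s ^ 2 * (1 / 3) :=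
        mul_le_mul_of_nonneg_left (sum_quarter_le L) (by positivity)
    _ = 3 * s ^ 2 := by ring

lemma abs_pertH_le [NeZero N] (s : ℝ) (x : Fin L → ℝ) (J : PertIdx N L → ℝ) (σ : Cube N) :
    |pertH s x J σ| ≤ |s| * (∑ P, |x P|) * absJ J := by
  rw [pertH_eq_sum, Finset.mul_sum, Finset.sum_mul]
  refine (Finset.abs_sum_le_sum_abs _ _).trans (Finset.sum_le_sum fun P _ => ?_)
  rw [abs_mul, abs_mul, ← mul_assoc, mul_comm |x P|]
  exact mul_le_mul_of_nonneg_left (abs_gObs_le P J σ) (by positivity)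

lemma memLp_famAbsJ : MemLp (fun e : D × (PertIdx N L → ℝ) => absJ e.2) 2 (famLaw law N L) := by
  have h : MemLp (absJ (N := N) (L := L)) 2 (gam (PertIdx N L)) :=
    memLp_finsetSum _ fun c _ => (memLp_id_gaussianReal 2).abs.comp_measurePreserving
      (measurePreserving_eval (fun _ : PertIdx N L => gaussianReal 0 1) c)
  exact h.comp_snd law

variable (hm : Exps m) (hW : MeasW W) (hb : ∀ d, WBdd C (W d))
include hm hW hb

lemma memLp_Phi [NeZero N] (s : ℝ) (x : Fin L → ℝ) :
    MemLp (fun e => Phi ν m (pertW W s x e)) 2 (famLaw law N L) := by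
  obtain ⟨B, hB⟩ : ∃ B, B = |Real.log (Fintype.card (Cube N) * C)| := ⟨_, rfl⟩
  refine ((memLp_const B).add ((memLp_famAbsJ law).const_mul (|s| * ∑ P, |x P|))).mono
    (measurable_Phi ν m (measW_pertW_fixed hW s x)).aestronglyMeasurable (ae_of_all _ fun e => ?_)
  rw [Real.norm_eq_abs, Real.norm_eq_abs]
  refine le_trans ?_ (le_abs_self _)
  simp only [Pi.add_apply]
  have h1 := abs_Phi_sub_le ν hm (hb e.1) (fun _ => 0) (pertH s x e.2)
    (c := |s| * (∑ P, |x P|) * absJ e.2) fun σ => by rw [sub_zero]; exact abs_pertH_le s x e.2 σ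
  have h2 : tiltW (W e.1) (fun _ => 0) = W e.1 := by funext σ η; simp [tiltW]
  rw [h2] at h1
  have h3 := abs_Phi_le' ν hm (hb e.1)
  rw [pertW_eq]
  linarith [abs_sub_abs_le_abs_sub (Phi ν m (tiltW (W e.1) (pertH s x e.2))) (Phi ν m (W e.1))]

/-- The variance of the perturbed free energy. -/
theorem Phi_variance [NeZero N] (s : ℝ) {x : Fin L → ℝ} (hx : ∀ P, |x P| ≤ 3) {V : ℝ}
    (hV : variance (pertPhi ν m W s x) law ≤ V) :
    variance (fun e => Phi ν m (pertW W s x e)) (famLaw law N L) ≤ 3 * s ^ 2 + V := by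
  refine variance_prod_le (g := fun _ => 3 * s ^ 2) (memLp_Phi ν law hm hW hb s x)
    (integrable_const _) (fun d => ?_) (le_of_eq (by simp)) hV
  have e : ∀ J, pertW W s x (d, J) =
      tiltW (W d) (field (fun τ c => s * x c.1 * feat c τ) J) := fun J =>
    congrArg (tiltW (W d)) (funext fun σ => pertH_eq_field s x J σ)
  simp only [e]
  set K : PertIdx N L → ℝ := fun c => |s| * 3 * ((1 / 2 : ℝ) ^ (c.1.val + 1) *
    ((Real.sqrt N)⁻¹) ^ (c.1.val + 1)) with hK
  have hKb : ∀ (σ : Cube N) (c : PertIdx N L), |s * x c.1 * feat c σ| ≤ K c := fun σ c => by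
    rw [abs_mul, abs_mul, abs_feat, hK]
    exact mul_le_mul_of_nonneg_right (mul_le_mul_of_nonneg_left (hx _) (abs_nonneg _))
      (by positivity)
  have h1 := (phi_field_variance ν hm (hb d) (fun τ c => s * x c.1 * feat c τ) hKb).2
  exact h1.trans (sum_sq_coef_le (N := N) (L := L) s)

end Vale.Agent.P166.NW.GG
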