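import Vale.Agent.P166.NW.GG.Finite

/-!
The thermal variance of an observable under weights carried by a cascade is at most the second
derivative of the free energy divided by the smallest exponent.
-/

noncomputable section

open MeasureTheory ProbabilityTheory Filter
open scoped BigOperators Topology

namespace Vale.Agent.P166.NW.GG

open Vale.Agent.P157 Vale.Agent.P157.Parisi Vale.Agent.P157.Parisi.Up
open Vale.Agent.P168 (CascTree cascLaw cascSum cascFilter shapeProb shapeMarks)
open Vale.Agent.P168.Cascade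
open Vale.Agent.P168.Limit (gw gav rav abs_rav_le)
open Vale.Agent.P168.Upper (cascFilter_neBot tendsto_integral_cascFilter)

variable {β : Type} [MeasurableSpace β] (ν : Measure β) [IsProbabilityMeasure ν] {r N : ℕ}
  {m : Fin r → ℝ} {C : ℝ}

lemma rav_two {X : Type*} [Fintype X] [Inhabited X] (H v u : X → ℝ) :
    rav 2 H (fun σ => v (σ 0) * u (σ 1)) = gav H v * gav H u := by
  have h := Vale.Agent.P168.Limit.rav_eq_prod 2 H ![v, u]
  simpa [Fin.prod_univ_two] using h

/-- Two replicas meeting at the root are independent. -/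
lemma pairM_zero (hm : Exps m) {Y g h : (Fin r → β) → ℝ} (hY : Bdd C Y) (hgm : Measurable g)
    (hhm : Measurable h) (hg : ∀ η, |g η| ≤ 1) (hh : ∀ η, |h η| ≤ 1) :
    pairM ν m Y g h 0 = logD ν m Y g * logD ν m Y h := by
  have h2 : (Fin.snoc (fun _ : Fin 1 => g) h : Fin 2 → (Fin r → β) → ℝ) = ![g, h] := by
    funext a; fin_cases a <;> simp [Fin.snoc]
  have h1 := integral_attach ν (q := (0 : Fin (r + 1))) (a := (0 : Fin 1)) hm (isTree_one r) hY hhm
    hh (g := fun _ => g) (fun _ => hgm) fun _ => hg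
  rw [h2] at h1
  rw [pairM, sh, h1]
  simp only [Fin.val_zero, condD_zero, integral_mul_const]
  congr 1
  have h4 := tiltMoment_one ν hm hY (g := fun _ => g) (fun _ => hgm) fun _ => hg
  simpa [tiltMoment, shapeProb_one, integrand] using h4

lemma logD_self (hm : Exps m) {Y : (Fin r → β) → ℝ} (hY : Bdd C Y) : logD ν m Y Y = 1 := by
  simpa only [one_mul] using logD_dir ν 1 hm hY

/-- A second replica with the weight itself has no effect. -/
lemma pairM_dir (hm : Exps m) {Y h : (Fin r → β) → ℝ} (hY : Bdd C Y) (hhm : Measurable h)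
    (hh : ∀ η, |h η| ≤ 1) (c : ℝ) (hc : ∀ η, |c * Y η| ≤ 1) (p : Fin (r + 1)) :
    pairM ν m Y h (fun η => c * Y η) p = c * logD ν m Y h := by
  have h2 : (Fin.snoc (fun _ : Fin 1 => h) (fun η => c * Y η) : Fin 2 → (Fin r → β) → ℝ) =
      ![h, fun η => c * Y η] := by
    funext a; fin_cases a <;> simp [Fin.snoc]
  have h1 := integral_attach ν (q := p) (a := (0 : Fin 1)) hm (isTree_one r) hY
    (hY.meas.const_mul c) hc (g := fun _ => h) (fun _ => hhm) fun _ => hh
  rw [h2] at h1
  rw [pairM, sh, h1]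
  simp only [condD_dir ν c hm hY, integral_mul_const]
  rw [mul_comm c (logD ν m Y h)]
  congr 1
  have h4 := tiltMoment_one ν hm hY (g := fun _ => h) (fun _ => hhm) fun _ => hh
  simpa [tiltMoment, shapeProb_one, integrand] using h4

lemma integrable_pair (hm : Exps m) {Y g h : (Fin r → β) → ℝ} (hY : Bdd C Y) (hgm : Measurable g)
    (hhm : Measurable h) (hg : ∀ η, |g η| ≤ 1) (hh : ∀ η, |h η| ≤ 1) (p : Fin (r + 1)) :
    Integrable (integrand ν m Y ![g, h] (sh p)) (tableLaw ν r 2) :=
  Integrable.of_bound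
    (measurable_integrand ν m hY.meas (fun a => by fin_cases a <;> assumption) _).aestronglyMeasurable
    _ (Eventually.of_forall fun ω => by
      rw [Real.norm_eq_abs]
      exact abs_integrand_le ν hm hY (fun a => by fin_cases a <;> assumption) _ ω)

/-- The second moment of the conditional mean is at most the mixture of the first and the largest. -/
theorem sum_pairM_le (hm : Exps m) {Y g h : (Fin r → β) → ℝ} (hY : Bdd C Y) (hgm : Measurable g)
    (hhm : Measurable h) {c : ℝ} (hc : 0 < c) (hg : ∀ η, |g η| ≤ 1) (hh : ∀ η, |h η| ≤ 1)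
    (hcY : ∀ η, |c * Y η| ≤ 1) (hgh : ∀ η, g η ^ 2 ≤ h η * (c * Y η)) :
    ∑ p, weight m p * pairM ν m Y g g p ≤ weight m 0 * logD ν m Y g ^ 2 +
      (1 - weight m 0) * (c * logD ν m Y h) := by
  set U : (Fin r → β) → ℝ := fun η => c * Y η with hU
  have hUm : Measurable U := hY.meas.const_mul c
  have hsym : ∑ p, weight m p * pairM ν m Y U h p = ∑ p, weight m p * pairM ν m Y h U p := by
    have := cascFilter_neBot r
    exact tendsto_nhds_unique (tendsto_ratio_mul ν hm hY hUm hhm hcY hh)
      ((tendsto_ratio_mul ν hm hY hhm hUm hh hcY).congr fun n => by simp only [mul_comm])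
  have hp : ∀ p, pairM ν m Y g g p ≤ 1 / 2 * pairM ν m Y h U p + 1 / 2 * pairM ν m Y U h p := by
    intro p
    rw [pairM, pairM, pairM, ← integral_const_mul, ← integral_const_mul, ← integral_add
      ((integrable_pair ν hm hY hhm hUm hh hcY p).const_mul _)
      ((integrable_pair ν hm hY hUm hhm hcY hh p).const_mul _)]
    refine integral_mono (integrable_pair ν hm hY hgm hgm hg hg p)
      (((integrable_pair ν hm hY hhm hUm hh hcY p).const_mul _).add
        ((integrable_pair ν hm hY hUm hhm hcY hh p).const_mul _)) fun ω => ?_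
    simp only [integrand, Fin.prod_univ_two, Matrix.cons_val_zero, Matrix.cons_val_one]
    set a := shapeMarks (sh p) ω 0
    set b := shapeMarks (sh p) ω 1
    set e := Real.exp (logW ν m Y (sh p) ω)
    have he : 0 < e := Real.exp_pos _
    have hU0 : ∀ η, 0 < U η := fun η => mul_pos hc (hY.gt_zero η)
    have hh0 : ∀ η, 0 ≤ h η := fun η =>
      nonneg_of_mul_nonneg_left ((sq_nonneg _).trans (hgh η)) (hU0 η)
    have key : (g a * g b) * 2 ≤ h a * U b + U a * h b := by
      have h0 : (g a * g b) ^ 2 ≤ (h a * U b) * (U a * h b) := by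
        calc (g a * g b) ^ 2 = g a ^ 2 * g b ^ 2 := by ring
          _ ≤ (h a * U a) * (h b * U b) :=
            mul_le_mul (hgh a) (hgh b) (sq_nonneg _) ((sq_nonneg _).trans (hgh a))
          _ = _ := by ring
      have h1 : 0 ≤ h a * U b + U a * h b :=
        add_nonneg (mul_nonneg (hh0 a) (hU0 b).le) (mul_nonneg (hU0 a).le (hh0 b))
      nlinarith [sq_nonneg (h a * U b - U a * h b)]
    nlinarith
  have hz : pairM ν m Y g g 0 = logD ν m Y g ^ 2 := by rw [pairM_zero ν hm hY hgm hgm hg hg, sq]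
  have hlU : logD ν m Y U = c := logD_dir ν c hm hY
  have hall : ∀ p, pairM ν m Y h U p = c * logD ν m Y h := pairM_dir ν hm hY hhm hh c hcY
  have hU0 : pairM ν m Y U h 0 = c * logD ν m Y h := by
    rw [pairM_zero ν hm hY hUm hhm hcY hh, hlU]
  simp only [hall, ← Finset.sum_mul, sum_weight, one_mul] at hsym
  rw [Fin.sum_univ_succ, hz]
  rw [Fin.sum_univ_succ, hU0] at hsym
  have hw : ∀ p : Fin (r + 1), 0 ≤ weight m p := weight_nonneg hm
  have hs : ∑ p : Fin r, weight m p.succ = 1 - weight m 0 := by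
    have := sum_weight m
    rw [Fin.sum_univ_succ] at this
    linarith
  refine add_le_add le_rfl ?_
  calc ∑ p : Fin r, weight m p.succ * pairM ν m Y g g p.succ
      ≤ ∑ p : Fin r, (weight m p.succ * (1 / 2 * (c * logD ν m Y h)) +
          1 / 2 * (weight m p.succ * pairM ν m Y U h p.succ)) := by
        refine Finset.sum_le_sum fun p _ => ?_
        have := mul_le_mul_of_nonneg_left (hp p.succ) (hw p.succ)
        rw [hall] at this
        linarith
    _ = _ := by
        rw [Finset.sum_add_distrib, ← Finset.sum_mul, ← Finset.mul_sum, hs]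
        linarith

variable {w : Cube N → (Fin r → β) → ℝ}

/-- One replica mean as a logarithmic derivative. -/
lemma nRep_one_eq (hm : Exps m) (hw : WBdd C w) (v : Cube N → ℝ) {a : ℝ}
    (hb : ∀ η, |a * ∑ σ, v σ * w σ η| ≤ 1) :
    a * nRep ν m w 1 (fun σ => v (σ 0)) =
      logD ν m (sumW w) (fun η => a * ∑ σ, v σ * w σ η) := by
  have := cascFilter_neBot r
  set g : (Fin r → β) → ℝ := fun η => a * ∑ σ, v σ * w σ η
  have hgm : Measurable g :=
    (Finset.measurable_sum _ fun σ _ => (hw σ).meas.const_mul _).const_mul _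
  rw [← tiltMoment_one ν hm (bdd_sumW hw) (g := fun _ => g) (fun _ => hgm) (fun _ => hb)]
  refine tendsto_nhds_unique ((tendsto_rav ν hm hw (k := 0) fun σ => v (σ 0)).const_mul a)
    ((integral_prod_ratio_tendsto ν 0 hm (le_max_left _ _) (bdd_sumW hw) (g := fun _ => g)
      (fun _ => hgm) fun _ => hb).congr' ?_)
  filter_upwards [eventually_pos r] with n hn
  rw [← integral_const_mul]
  refine integral_congr_ae ((ae_good ν r n).mono fun t ht => ?_)
  beta_reduce
  rw [Perturb.rav_first, Fin.prod_univ_one, gav]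
  simp only [gw_finH hw hn ht, ratio, g, mul_div_assoc, cascSum_eq_sum_leaves,
    Finset.mul_sum, Finset.sum_div, Finset.sum_mul]
  rw [Finset.sum_comm]
  refine Finset.sum_congr rfl fun f _ => Finset.sum_congr rfl fun σ _ => ?_
  ring

/-- Two replica means as pairs. -/
lemma nRep_two_eq (hm : Exps m) (hw : WBdd C w) (v : Cube N → ℝ) {a : ℝ}
    (hb : ∀ η, |a * ∑ σ, v σ * w σ η| ≤ 1) :
    a ^ 2 * nRep ν m w 2 (fun σ => v (σ 0) * v (σ 1)) =
      ∑ p, weight m p * pairM ν m (sumW w) (fun η => a * ∑ σ, v σ * w σ η)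
        (fun η => a * ∑ σ, v σ * w σ η) p := by
  have := cascFilter_neBot r
  set g : (Fin r → β) → ℝ := fun η => a * ∑ σ, v σ * w σ η
  have hgm : Measurable g :=
    (Finset.measurable_sum _ fun σ _ => (hw σ).meas.const_mul _).const_mul _
  refine tendsto_nhds_unique
    ((tendsto_rav ν hm hw (k := 1) fun σ => v (σ 0) * v (σ 1)).const_mul (a ^ 2))
    ((tendsto_ratio_mul ν hm (bdd_sumW hw) hgm hgm hb hb).congr' ?_)
  filter_upwards [eventually_pos r] with n hn
  rw [← integral_const_mul]
  refine integral_congr_ae ((ae_good ν r n).mono fun t ht => ?_)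
  beta_reduce
  rw [rav_two]
  have e : ratio m n (sumW w) g t = a * gav (finH m n w t) v := by
    simp only [gav, gw_finH hw hn ht, ratio, g, mul_div_assoc, cascSum_eq_sum_leaves,
      Finset.mul_sum, Finset.sum_div, Finset.sum_mul]
    rw [Finset.sum_comm]
    refine Finset.sum_congr rfl fun f _ => Finset.sum_congr rfl fun σ _ => ?_
    ring
  rw [e]
  ring

/-- The variance under one tilted replica against the thermal variance. -/
theorem thermal_var (hm : Exps m) (hw : WBdd C w) (v : Cube N → ℝ) :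
    weight m 0 * (nRep ν m w 1 (fun σ => v (σ 0) ^ 2) - nRep ν m w 1 (fun σ => v (σ 0)) ^ 2) ≤
      nRep ν m w 1 (fun σ => v (σ 0) ^ 2) - nRep ν m w 2 (fun σ => v (σ 0) * v (σ 1)) := by
  obtain ⟨hY0, hYm, hYb⟩ := bdd_sumW hw
  set Cy := max 1 ((Fintype.card (Cube N) : ℝ) * C)
  have hC1 : 1 ≤ Cy := le_max_left _ _
  set V := 1 + ∑ σ, |v σ| with hV
  have hV1 : 1 ≤ V := le_add_of_nonneg_right (Finset.sum_nonneg fun σ _ => abs_nonneg _)
  have hvV : ∀ σ, |v σ| ≤ V := fun σ => (Finset.single_le_sum (f := fun τ => |v τ|)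
    (fun τ _ => abs_nonneg _) (Finset.mem_univ σ)).trans (le_add_of_nonneg_left zero_le_one)
  set a := (V * Cy)⁻¹ with ha
  have hVC : 0 < V * Cy := by positivity
  have ha0 : 0 < a := inv_pos.2 hVC
  set Y := sumW w with hYdef
  have hYpos : ∀ η, 0 < Y η := fun η => (inv_pos.2 hY0).trans_le (hYb η).1
  set S : (Fin r → β) → ℝ := fun η => ∑ σ, v σ * w σ η
  set T : (Fin r → β) → ℝ := fun η => ∑ σ, v σ ^ 2 * w σ η
  have hS : ∀ η, |S η| ≤ V * Y η := fun η => by
    refine (Finset.abs_sum_le_sum_abs _ _).trans ?_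
    simp only [hYdef, sumW, Finset.mul_sum]
    refine Finset.sum_le_sum fun σ _ => ?_
    rw [abs_mul, abs_of_pos ((hw σ).gt_zero η)]
    exact mul_le_mul_of_nonneg_right (hvV σ) ((hw σ).gt_zero η).le
  have hT : ∀ η, |T η| ≤ V ^ 2 * Y η := fun η => by
    refine (Finset.abs_sum_le_sum_abs _ _).trans ?_
    simp only [hYdef, sumW, Finset.mul_sum]
    refine Finset.sum_le_sum fun σ _ => ?_
    rw [abs_mul, abs_of_pos ((hw σ).gt_zero η), abs_of_nonneg (sq_nonneg _), ← sq_abs]
    exact mul_le_mul_of_nonneg_right (pow_le_pow_left₀ (abs_nonneg _) (hvV σ) 2)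
      ((hw σ).gt_zero η).le
  have hS1 : ∀ η, |a * S η| ≤ 1 := fun η => by
    rw [abs_mul, abs_of_pos ha0, ha, inv_mul_le_iff₀ hVC, mul_one]
    exact (hS η).trans (mul_le_mul_of_nonneg_left (hYb η).2 (by linarith))
  -- scales with the same product
  set c := Cy⁻¹ with hc
  set b := a ^ 2 / c with hb
  have hc0 : 0 < c := inv_pos.2 hY0
  have hcY : ∀ η, |c * Y η| ≤ 1 := fun η => by
    rw [abs_mul, abs_of_pos hc0, abs_of_pos (hYpos η), hc, inv_mul_le_iff₀ hY0, mul_one]
    exact (hYb η).2
  have hT1 : ∀ η, |b * T η| ≤ 1 := fun η => by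
    have hb0 : 0 < b := by positivity
    rw [abs_mul, abs_of_pos hb0]
    calc b * |T η| ≤ b * (V ^ 2 * Cy) := mul_le_mul_of_nonneg_left
          ((hT η).trans (mul_le_mul_of_nonneg_left (hYb η).2 (sq_nonneg _))) hb0.le
      _ = 1 := by simp only [hb, ha, hc]; field_simp
  have hgh : ∀ η, (a * S η) ^ 2 ≤ b * T η * (c * Y η) := fun η => by
    rw [show b * T η * (c * Y η) = a ^ 2 * (T η * Y η) by simp only [hb]; field_simp, mul_pow]
    refine mul_le_mul_of_nonneg_left ?_ (sq_nonneg a)
    simp only [S, T, hYdef, sumW]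
    refine Finset.sum_sq_le_sum_mul_sum_of_sq_le_mul _ (fun σ _ => ?_) (fun σ _ => ?_)
      fun σ _ => le_of_eq ?_
    · exact mul_nonneg (sq_nonneg _) ((hw σ).gt_zero η).le
    · exact ((hw σ).gt_zero η).le
    · ring
  have e1 := nRep_one_eq ν hm hw v hS1
  have e2 := nRep_two_eq ν hm hw v hS1
  have e3 := nRep_one_eq ν hm hw (fun σ => v σ ^ 2) hT1
  have key := sum_pairM_le ν hm (bdd_sumW hw)
    ((Finset.measurable_sum _ fun σ _ => (hw σ).meas.const_mul _).const_mul a)
    ((Finset.measurable_sum _ fun σ _ => (hw σ).meas.const_mul _).const_mul b) hc0 hS1 hT1 hcY hgh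
  rw [← e1, ← e2, ← e3] at key
  have hcb : c * b = a ^ 2 := by simp only [hb]; field_simp
  rw [mul_pow, ← mul_assoc c, hcb] at key
  have ha2 : 0 < a ^ 2 := by positivity
  refine le_of_mul_le_mul_left ?_ ha2
  linarith

lemma weight_zero_pos {r : ℕ} {m : Fin r → ℝ} (hm : Exps m) : 0 < weight m 0 := by
  cases r with
  | zero => simp [weight, Fin.snoc]
  | succ r => simpa [weight, Fin.snoc] using hm.pos 0

/-- The mean observable grows by the integral of the thermal variance. -/
theorem thermal_ftc (hm : Exps m) (hw : WBdd C w) (h v : Cube N → ℝ)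
    (hmv : Measurable fun u : ℝ =>
      nRep ν m (tiltW w fun σ => h σ + u * v σ) 1 (fun σ => v (σ 0) ^ 2) -
        nRep ν m (tiltW w fun σ => h σ + u * v σ) 2 (fun σ => v (σ 0) * v (σ 1))) :
    ∫ u in Set.Icc (1 : ℝ) 2, (nRep ν m (tiltW w fun σ => h σ + u * v σ) 1 (fun σ => v (σ 0) ^ 2) -
        nRep ν m (tiltW w fun σ => h σ + u * v σ) 2 (fun σ => v (σ 0) * v (σ 1))) =
      nRep ν m (tiltW w fun σ => h σ + 2 * v σ) 1 (fun σ => v (σ 0)) -
        nRep ν m (tiltW w fun σ => h σ + 1 * v σ) 1 (fun σ => v (σ 0)) := by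
  have := cascFilter_neBot r
  have : IsProbabilityMeasure (volume.restrict (Set.Icc (1 : ℝ) 2)) := ⟨by simp; norm_num⟩
  have hsq : ∀ σ, |v σ ^ 2| ≤ ∑ τ, v τ ^ 2 := fun σ => by
    rw [abs_of_nonneg (sq_nonneg _)]
    exact Finset.single_le_sum (f := fun τ => v τ ^ 2) (fun τ _ => sq_nonneg _) (Finset.mem_univ σ)
  set B := ∑ τ, v τ ^ 2
  have hvv : ∀ σ τ, |v σ * v τ| ≤ B := fun σ τ => by
    have h1 := hsq σ
    have h2 := hsq τ
    rw [abs_of_nonneg (sq_nonneg _)] at h1 h2
    rw [abs_mul]
    nlinarith [sq_nonneg (|v σ| - |v τ|), sq_abs (v σ), sq_abs (v τ)]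
  have hm2 : ∀ (n : Fin r → ℕ) (k : ℕ) (F : (Fin k → Cube N) → ℝ),
      Measurable fun z : ℝ × CascTree β r n =>
        rav k (fun σ => finH m n w z.2 σ + (h σ + z.1 * v σ)) F := fun n k F =>
    Finset.measurable_sum _ fun _ _ => (Finset.measurable_prod _ fun _ _ =>
      (((measurable_finH m n hw _).comp measurable_snd).add
        ((measurable_fst.mul_const _).const_add _)).exp.div
      (Finset.measurable_sum _ fun τ _ => (((measurable_finH m n hw τ).comp measurable_snd).add
        ((measurable_fst.mul_const _).const_add _)).exp)).mul_const _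
  set W : (n : Fin r → ℕ) → ℝ → CascTree β r n → ℝ := fun n u t =>
    rav 1 (fun σ => finH m n w t σ + (h σ + u * v σ)) (fun σ => v (σ 0) ^ 2) -
      rav 2 (fun σ => finH m n w t σ + (h σ + u * v σ)) (fun σ => v (σ 0) * v (σ 1)) with hW
  have hWm : ∀ n, Measurable fun z : ℝ × CascTree β r n => W n z.1 z.2 := fun n =>
    (hm2 n 1 _).sub (hm2 n 2 _)
  have hWb : ∀ n u t, |W n u t| ≤ 2 * B := fun n u t => by
    refine (abs_sub _ _).trans ?_
    rw [two_mul]
    exact add_le_add (abs_rav_le 1 _ _ fun σ => hsq _) (abs_rav_le 2 _ _ fun σ => hvv _ _)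
  have hlim := tendsto_integral_cascFilter (volume.restrict (Set.Icc (1 : ℝ) 2))
    (fun n u => ∫ t, W n u t ∂cascLaw ν r n) _ (2 * B)
    (fun n => (hWm n).stronglyMeasurable.integral_prod_right'.measurable) hmv (fun n u => ?_)
    (fun u => ?_) fun u => ?_
  rotate_left
  · have := norm_integral_le_of_norm_le_const (μ := cascLaw ν r n) (f := W n u) (C := 2 * B)
      (Eventually.of_forall fun t => hWb n u t)
    simpa using this
  · refine (abs_sub _ _).trans ?_
    rw [two_mul]
    exact add_le_add (abs_nRep_le ν hm (wbdd_tiltW hw _) fun σ => hsq _)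
      (abs_nRep_le ν hm (wbdd_tiltW hw _) fun σ => hvv _ _)
  · refine ((tendsto_rav_tilt ν hm hw _ (k := 0) _).sub (tendsto_rav_tilt ν hm hw _ (k := 1) _)).congr
      fun n => (integral_sub (integrable_rav_finH ν _ hw n _ _) (integrable_rav_finH ν _ hw n _ _)).symm
  refine tendsto_nhds_unique hlim
    (((tendsto_rav_tilt ν hm hw (fun σ => h σ + 2 * v σ) (k := 0) fun σ => v (σ 0)).sub
      (tendsto_rav_tilt ν hm hw (fun σ => h σ + 1 * v σ) (k := 0) fun σ => v (σ 0))).congr fun n => ?_)
  rw [← integral_sub (integrable_rav_finH ν _ hw n _ _) (integrable_rav_finH ν _ hw n _ _),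
    integral_integral_swap (Integrable.of_bound (hWm n).aestronglyMeasurable (2 * B)
      (Eventually.of_forall fun z => hWb n z.1 z.2))]
  refine integral_congr_ae (Eventually.of_forall fun t => ?_)
  simp only [Perturb.rav_first, hW, rav_two, ← add_assoc,
    Perturb.rav_first 0 _ (fun σ => v σ ^ 2)]
  rw [integral_Icc_eq_integral_Ioc, ← intervalIntegral.integral_of_le one_le_two]
  refine (intervalIntegral.integral_eq_sub_of_hasDerivAt
    (f := fun u => gav (fun σ => finH m n w t σ + h σ + u * v σ) v) (fun u _ =>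
    (Vale.Agent.P168.Limit.SelfAvg.hasDerivAt_gav (fun σ => finH m n w t σ + h σ) v u).congr_deriv
      ?_) ?_).symm
  · rw [Vale.Agent.P168.Limit.SelfAvg.gav_sq_sub]
    ring
  · refine Continuous.intervalIntegrable ?_ _ _
    simp only [gav, gw]
    fun_prop (disch := intro; exact (Vale.Agent.P168.Limit.SelfAvg.partition_pos _).ne')

end Vale.Agent.P166.NW.GG
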